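import Vale.Agent.P014Y.Br.Defs

/-!
# P014 Y, block BR: induced class functions
-/

set_option linter.all false

open scoped Classical

noncomputable section

namespace Vale.Agent.P014Y.Br

open Vale.Agent.P022 (Qb GQ)

/-- `T` is a system of representatives of `Γ / Γ'` -/
def Rp (Γ Γ' : Subgroup GQ) (T : Finset GQ) : Prop :=
  (∀ t ∈ T, t ∈ Γ) ∧ ∀ g ∈ Γ, ∃! t, t ∈ T ∧ t⁻¹ * g ∈ Γ'

/-- the induced class function -/
def ind (Γ' : Subgroup GQ) (T : Finset GQ) (θ : GQ → ℂ) (g : GQ) : ℂ :=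
  ∑ t ∈ T, if t⁻¹ * g * t ∈ Γ' then θ (t⁻¹ * g * t) else 0

theorem ind_bd {Γ' : Subgroup GQ} {T : Finset GQ} {θ : GQ → ℂ} (h : ∀ g ∈ Γ', ‖θ g‖ ≤ 1) :
    Bd (ind Γ' T θ) :=
  ⟨∑ _t ∈ T, 1, fun g => (norm_sum_le _ _).trans (Finset.sum_le_sum fun t _ => by
    split_ifs with k
    · exact h _ k
    · simp)⟩

/-- two representatives in the same class are equal -/
theorem Rp.eq {Γ Γ' : Subgroup GQ} {T : Finset GQ} (h : Rp Γ Γ' T) {t t' : GQ} (ht : t ∈ T)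
    (ht' : t' ∈ T) (e : t⁻¹ * t' ∈ Γ') : t = t' :=
  (h.2 t' (h.1 t' ht')).unique ⟨ht, e⟩ ⟨ht', by rw [inv_mul_cancel]; exact one_mem _⟩

/-- representatives exist for open subgroups -/
theorem ex_rp (Γ : Subgroup GQ) {Γ' : Subgroup GQ} (le : Γ' ≤ Γ) (ho : IsOpen (Γ' : Set GQ)) :
    ∃ T, Rp Γ Γ' T := by
  have := P022K.GW.Pl.cpt
  haveI : Finite (GQ ⧸ Γ') := Γ'.quotient_finite_of_isOpen ho
  have := Fintype.ofFinite (GQ ⧸ Γ')
  have k : ∀ g : GQ, ((g : GQ ⧸ Γ').out)⁻¹ * g ∈ Γ' := fun g =>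
    QuotientGroup.eq.1 (QuotientGroup.out_eq' _)
  refine ⟨(Finset.univ.image fun q : GQ ⧸ Γ' => q.out).filter (· ∈ Γ),
    fun t ht => (Finset.mem_filter.1 ht).2, fun g hg => ⟨(g : GQ ⧸ Γ').out, ⟨Finset.mem_filter.2
      ⟨Finset.mem_image_of_mem _ (Finset.mem_univ _), ?_⟩, k g⟩, fun t ⟨ht, e⟩ => ?_⟩⟩
  · have := Γ.mul_mem hg (Γ.inv_mem (le (k g)))
    simpa using this
  · obtain ⟨q, -, rfl⟩ := Finset.mem_image.1 (Finset.mem_filter.1 ht).1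
    rw [← QuotientGroup.eq.2 e, QuotientGroup.out_eq']

end Vale.Agent.P014Y.Br
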