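import Vale.Agent.P014Y.Tp.Defs
import Vale.Agent.P014Y.Br.Rp

/-! # P014 Y, block BR: the Brauer relation in `GL₂(𝔽₃)` -/

set_option autoImplicit false
set_option linter.all false

open Matrix
open scoped Classical

noncomputable section

namespace Vale.Agent.P014Y.Br

open Vale.Agent.P022 (Qb GQ GK)
open Vale.Agent.P027M.M (ze)
open Tp

namespace Ba

abbrev V3 : Type := Fin 2 → ZMod 3

/-- the line of a vector -/
def ln (v : V3) : Option (ZMod 3) := if v 1 = 0 then none else some (v 0 * v 1)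

/-- a vector on the line -/
def vy : Option (ZMod 3) → V3
  | none => ![1, 0]
  | some t => ![t, 1]

theorem ln_iff : ∀ v w : V3, v ≠ 0 → w ≠ 0 → (ln v = ln w ↔ v = w ∨ v = -w) := by decide +kernel

theorem ln_vy : ∀ y, ln (vy y) = y ∧ vy y ≠ 0 := by decide +kernel

theorem two3 : ∀ d : ZMod 3, d ≠ 0 → (d = 1 ∨ d = -1) ∧ d * d = 1 := by decide

theorem sb_neg {v : V3} {a : G3} : Sb (-v) a ↔ Sb v a := by
  simp only [Sb, mulVec_neg, neg_inj]

theorem sb_of {v w : V3} {a : G3} (h : v = w ∨ v = -w) : Sb v a ↔ Sb w a := by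
  rcases h with rfl | rfl
  exacts [.rfl, sb_neg]

theorem sb0 : ∀ a b c d : ZMod 3, a * d - b * c = 1 → ∀ v : V3, v ≠ 0 →
    (!![a, b; c, d] *ᵥ v = v ∨ !![a, b; c, d] *ᵥ v = -v) → a + d ≠ 0 := by
  decide +kernel

/-- the elements of the stabiliser -/
def st (s t : ZMod 3) (v : V3) : G3 := s • (1 + t • vecMulVec v ![-v 1, v 0])

theorem sb1 : ∀ a b c d u v s : ZMod 3, ![u, v] ≠ 0 → a * d - b * c = 1 → a * u + b * v = s * u →
    c * u + d * v = s * v → !![a, b; c, d] = st (-(a + d)) (un !![a, b; c, d]) ![u, v] := by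
  decide +kernel

theorem sb_tr {v : V3} {a : G3} (n : v ≠ 0) (h : Sb v a) : a.trace ≠ 0 ∧ a = st (sg a) (un a) v := by
  have := sb0 (a 0 0) (a 0 1) (a 1 0) (a 1 1) (det_fin_two a ▸ h.1) v n
  have k := sb1 (a 0 0) (a 0 1) (a 1 0) (a 1 1) (v 0) (v 1)
  have e : ![v 0, v 1] = v := funext fun i => by fin_cases i <;> rfl
  rw [← eta_fin_two, ← trace_fin_two] at this k
  rw [e, ← det_fin_two] at k
  refine ⟨this h.2, h.2.elim (fun q => k 1 n h.1 ?_ ?_) fun q => k (-1) n h.1 ?_ ?_⟩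
  exacts [by simpa [mulVec, dotProduct] using congrFun q 0,
    by simpa [mulVec, dotProduct] using congrFun q 1,
    by simpa [mulVec, dotProduct] using congrFun q 0,
    by simpa [mulVec, dotProduct] using congrFun q 1]

theorem un0 : ∀ a b c d a' b' c' d' : ZMod 3, a * d - b * c ≠ 0 → a' * d' - b' * c' = 1 →
    a' + d' ≠ 0 → un ((a * d - b * c) • !![d, -b; -c, a] * !![a', b'; c', d'] * !![a, b; c, d]) =
      (a * d - b * c) * un !![a', b'; c', d'] := by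
  simp only [un, sg, trace_fin_two, smul_mul_assoc, mul_fin_two, Matrix.smul_apply, of_apply, cons_val',
    cons_val_zero, cons_val_one, cons_val_fin_one, smul_eq_mul]
  decide +kernel

theorem un_cj {a a' b : G3} (e : a' * a = 1) (d : b.det = 1) (t : b.trace ≠ 0) :
    un (a' * b * a) = a.det * un b := by
  have n : a.det ≠ 0 := right_ne_zero_of_mul (a := a'.det) (by rw [← det_mul, e, det_one]; decide)
  have k : a' = a.det • a.adjugate := by
    rw [← mul_one a', ← one_smul (ZMod 3) 1, ← (two3 _ n).2, mul_smul, ← mul_adjugate,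
      mul_smul_comm, ← mul_assoc, e, one_mul]
  have := un0 (a 0 0) (a 0 1) (a 1 0) (a 1 1) (b 0 0) (b 0 1) (b 1 0) (b 1 1)
  rw [← eta_fin_two, ← eta_fin_two, ← det_fin_two, ← det_fin_two, ← trace_fin_two,
    ← adjugate_fin_two, ← k] at this
  exact this n d t

theorem ze_eq (n : ℕ) : ze 3 n = ze 3 1 ^ n := by
  rw [ze, ze, ← Complex.exp_nat_mul]
  congr 1
  push_cast
  ring

theorem ze_pr : IsPrimitiveRoot (ze 3 1) 3 := by
  simpa [ze] using Complex.isPrimitiveRoot_exp 3 (by decide)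

theorem ze_sum : ze 3 1 ^ 2 + ze 3 1 + 1 = 0 := by
  have := ze_pr.geom_sum_eq_zero (by decide)
  simp only [Finset.sum_range_succ, Finset.sum_range_zero] at this
  linear_combination this

theorem th_eq (k : ℕ) (a : G3) : th k a = (sg a).valMinAbs * (ze 3 1 ^ k) ^ (un a).val := by
  rw [th, ze_eq, pow_mul]

theorem vm_mul : ∀ x y : ZMod 3, (x * y).valMinAbs = x.valMinAbs * y.valMinAbs := by decide

theorem mul0 : ∀ (s s' t t' : ZMod 3) (v : V3), v ≠ 0 → s ≠ 0 → s' ≠ 0 →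
    sg (st s t v * st s' t' v) = s * s' ∧ un (st s t v * st s' t' v) = t + t' := by
  decide +kernel

theorem tab : ∀ a b c d : ZMod 3, (if a * d - b * c = 1 then 4 * (if !![a, b; c, d] = 1 ∨
    !![a, b; c, d] = -1 then -2 else 1) * (a + d).valMinAbs else 0 : ℤ) =
    ∑ y, if a * d - b * c = 1 ∧ (!![a, b; c, d] *ᵥ vy y = vy y ∨ !![a, b; c, d] *ᵥ vy y = -vy y) then
      (-(a + d)).valMinAbs * if un !![a, b; c, d] = 0 then 2 else -4 else 0 := by
  decide +kernel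

end Ba

open Ba

theorem sg_mul {x : V3} {a b : G3} (n : x ≠ 0) (ha : Sb x a) (hb : Sb x b) :
    sg (a * b) = sg a * sg b ∧ un (a * b) = un a + un b := by
  have := mul0 (sg a) (sg b) (un a) (un b) x n (neg_ne_zero.2 (sb_tr n ha).1)
    (neg_ne_zero.2 (sb_tr n hb).1)
  rwa [← (sb_tr n ha).2, ← (sb_tr n hb).2] at this

theorem th_mul (k : ℕ) {x : V3} {a b : G3} (n : x ≠ 0) (ha : Sb x a) (hb : Sb x b) :
    th k (a * b) = th k a * th k b := by
  have e : (ze 3 1 ^ k) ^ 3 = 1 := by rw [← pow_mul, pow_mul', ze_pr.pow_eq_one, one_pow]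
  rw [th_eq, th_eq, th_eq, (sg_mul n ha hb).1, (sg_mul n ha hb).2, vm_mul, ZMod.val_add,
    ← pow_eq_pow_mod _ e, pow_add]
  push_cast
  ring

theorem th_one (k : ℕ) : th k 1 = 1 := by
  rw [th_eq, show sg 1 = 1 by decide +kernel, show un 1 = 0 by decide +kernel]
  simp [show (1 : ZMod 3).valMinAbs = 1 from rfl]

theorem th_norm (k : ℕ) (a : G3) : ‖th k a‖ ≤ 1 := by
  have : ∀ x : ZMod 3, x.valMinAbs = 0 ∨ x.valMinAbs = 1 ∨ x.valMinAbs = -1 := by decide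
  rw [th_eq, norm_mul, norm_pow, norm_pow, ze_pr.norm'_eq_one (by decide), one_pow, one_pow, mul_one]
  rcases this (sg a) with e | e | e <;> simp [e]

theorem th_zero (a : G3) : th 0 a = (sg a).valMinAbs := by simp [th_eq]

theorem th_two (a : G3) : th 2 a = starRingEnd ℂ (th 1 a) := by
  have : starRingEnd ℂ (ze 3 1) = ze 3 1 ^ 2 := by
    rw [← Complex.inv_eq_conj (ze_pr.norm'_eq_one (by decide))]
    exact inv_eq_of_mul_eq_one_right (by rw [← pow_succ', ze_pr.pow_eq_one])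
  simp [th_eq, this]

variable {ρ : GQ → G3} {S : Finset ℕ} {κ : Type} {x : κ → Fin 2 → ZMod 3} {L : κ → Type}
  [∀ i, Field (L i)] {jL : ∀ i, L i →+* Qb}

namespace Ba

section

variable (h : Rh ρ S)
include h

theorem inv (g : GQ) : ρ g⁻¹ * ρ g = 1 := by rw [← h.mul, inv_mul_cancel, h.one]

theorem dne (g : GQ) : (ρ g).det ≠ 0 :=
  right_ne_zero_of_mul (a := (ρ g⁻¹).det) (by rw [← det_mul, inv h, det_one]; decide)

theorem dinv (g : GQ) : (ρ g⁻¹).det = (ρ g).det := by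
  rw [← mul_one (ρ g⁻¹).det, ← (two3 _ (dne h g)).2, ← mul_assoc, ← det_mul, inv h, det_one, one_mul]

theorem can (g : GQ) (v : V3) : ρ g⁻¹ *ᵥ (ρ g *ᵥ v) = v := by rw [mulVec_mulVec, inv h, one_mulVec]

theorem can' (g : GQ) (v : V3) : ρ g *ᵥ (ρ g⁻¹ *ᵥ v) = v := by simpa using can h g⁻¹ v

theorem vne (g : GQ) {v : V3} (n : v ≠ 0) : ρ g *ᵥ v ≠ 0 := fun e =>
  n (by rw [← can h g v, e, mulVec_zero])

theorem mv {g : GQ} {v w : V3} : ρ g⁻¹ *ᵥ v = w ↔ v = ρ g *ᵥ w :=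
  ⟨fun e => by rw [← e, can' h], fun e => by rw [e, can h]⟩

theorem sb_cj (t g : GQ) (v : V3) : Sb v (ρ (t⁻¹ * g * t)) ↔ Sb (ρ t *ᵥ v) (ρ g) := by
  simp only [Sb, h.mul, det_mul, dinv h, ← mulVec_mulVec, mv h, mulVec_neg]
  rw [mul_right_comm, (two3 _ (dne h t)).2, one_mul]

theorem sb_div (t g : GQ) (v w : V3) : ((ρ (t⁻¹ * g)).det = 1 ∧ (ρ (t⁻¹ * g) *ᵥ v = w ∨
    ρ (t⁻¹ * g) *ᵥ v = -w)) ↔ (ρ g).det = (ρ t).det ∧
      (ρ g *ᵥ v = ρ t *ᵥ w ∨ ρ g *ᵥ v = -(ρ t *ᵥ w)) := by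
  have : ∀ a b : ZMod 3, a ≠ 0 → (a * b = 1 ↔ b = a) := by decide
  simp only [h.mul, det_mul, dinv h, ← mulVec_mulVec, mv h, mulVec_neg, this _ _ (dne h t)]

theorem ex_det {d : ZMod 3} (n : d ≠ 0) : ∃ c, (ρ c).det = d := by
  rcases (two3 d n).1 with rfl | rfl
  · exact ⟨1, by rw [h.one, det_one]⟩
  obtain ⟨w, hw⟩ := HasEnoughRootsOfUnity.exists_primitiveRoot Qb 3
  by_contra! k
  obtain ⟨q, e⟩ : w ∈ (⊥ : IntermediateField ℚ Qb) :=
    (InfiniteGalois.mem_bot_iff_fixed w).2 fun c => by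
      rw [h.cyc c w hw.pow_eq_one, ((two3 _ (dne h c)).1.resolve_right (k c))]
      exact pow_one w
  have e : (q : Qb) = w := e
  have := hw.geom_sum_eq_zero (by decide)
  simp only [Finset.sum_range_succ, Finset.sum_range_zero, ← e] at this
  have : 0 + q ^ 0 + q ^ 1 + q ^ 2 = 0 := by exact_mod_cast this
  nlinarith [sq_nonneg (2 * q + 1)]

end

end Ba

theorem fam_finite (h : Rh ρ S) (F : Fam ρ x jL) : Finite κ :=
  .of_injective x fun i i' e => (F.ex (x i) (F.ne i)).unique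
    ⟨1, by simp [h.one]⟩ ⟨1, by simp [h.one, e]⟩

variable {K : Type} [Field K] {j : K →+* Qb} {Γ' : κ → Subgroup GQ} {T : κ → Finset GQ}

/-- the sum of the induced functions -/
theorem ind_sum [Fintype κ] (h : Rh ρ S) (F : Fam ρ x jL) (im : Im j ρ)
    (hΓ : ∀ i g, g ∈ Γ' i ↔ g ∈ GK j ∧ g ∈ GK (jL i)) (hT : ∀ i, Rp (GK j) (Γ' i) (T i)) (k : ℕ)
    {g : GQ} (hg : g ∈ GK j) : ∑ i, ind (Γ' i) (T i) (fun g => th k (ρ g)) g =
      ∑ y, if Sb (vy y) (ρ g) then ((sg (ρ g)).valMinAbs : ℂ) *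
        ((ze 3 1 ^ k) ^ (un (ρ g)).val + (ze 3 1 ^ k) ^ (-un (ρ g)).val) else 0 := by
  let f : Option (ZMod 3) × ZMod 3 → ℂ := fun z => if Sb (vy z.1) (ρ g) then
    ((sg (ρ g)).valMinAbs : ℂ) * (ze 3 1 ^ k) ^ (z.2 * un (ρ g)).val else 0
  trans ∑ z ∈ Finset.univ ×ˢ ({1, -1} : Finset (ZMod 3)), f z
  swap
  · rw [Finset.sum_product]
    refine Finset.sum_congr rfl fun y _ => ?_
    rw [Finset.sum_pair (by decide)]
    by_cases a : Sb (vy y) (ρ g) <;> simp [f, a, mul_add]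
  simp only [ind]
  rw [Finset.sum_sigma']
  refine Finset.sum_bij (fun z _ => (ln (ρ z.2 *ᵥ x z.1), (ρ z.2).det)) (fun z _ => ?_)
    (fun z a z' a' e => ?_) (fun z a => ?_) fun z a => ?_
  · simpa using (two3 _ (dne h z.2)).1
  · obtain ⟨i, t⟩ := z
    obtain ⟨i', t'⟩ := z'
    obtain ⟨e1, e2⟩ := Prod.ext_iff.1 e
    have e := (sb_div h t t' (x i') (x i)).2
      ⟨e2.symm, (ln_iff _ _ (vne h _ (F.ne _)) (vne h _ (F.ne _))).1 e1.symm⟩
    obtain rfl : i = i' := (F.ex (x i) (F.ne i)).unique ⟨1, by simp [h.one]⟩ ⟨_, e⟩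
    have m := (Finset.mem_sigma.1 a).2
    have m' := (Finset.mem_sigma.1 a').2
    obtain rfl : t = t' := (hT i).eq m m' ((hΓ _ _).2
      ⟨mul_mem (inv_mem ((hT i).1 _ m)) ((hT i).1 _ m'), (F.gL _ _).2 e⟩)
    rfl
  · obtain ⟨y, d⟩ := z
    obtain ⟨c, rfl⟩ := ex_det h (d := d) (by
      rcases (by simpa using a : d = 1 ∨ d = -1) with rfl | rfl <;> decide)
    obtain ⟨i, u, e⟩ := (F.ex _ (vne h c⁻¹ (ln_vy y).2)).exists
    obtain ⟨u', m, e'⟩ := im (c * u)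
    obtain ⟨t, m', e''⟩ := ((hT i).2 u' m).exists
    have k1 := (sb_div h t u' _ _).1 ((F.gL _ _).1 ((hΓ _ _).1 e'').2)
    have k2 := (sb_div h c (c * u) (x i) (ρ c⁻¹ *ᵥ vy y)).1 (by rwa [inv_mul_cancel_left])
    rw [← e', can' h] at k2
    refine ⟨⟨i, t⟩, Finset.mem_sigma.2 ⟨Finset.mem_univ _, m'⟩, Prod.ext ?_ (k1.1.symm.trans k2.1)⟩
    exact ((ln_iff _ _ (vne h _ (F.ne _)) (vne h _ (F.ne _))).2 k1.2).symm.trans
      (((ln_iff _ _ (vne h _ (F.ne _)) (ln_vy y).2).2 k2.2).trans (ln_vy y).1)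
  · obtain ⟨i, t⟩ := z
    have m := (hT i).1 _ (Finset.mem_sigma.1 a).2
    have n := vne h t (F.ne i)
    have e : t⁻¹ * g * t ∈ Γ' i ↔ Sb (vy (ln (ρ t *ᵥ x i))) (ρ g) := by
      rw [hΓ, and_iff_right (mul_mem (mul_mem (inv_mem m) hg) m), F.gL, sb_cj h]
      exact sb_of ((ln_iff _ _ n (ln_vy _).2).1 (ln_vy _).1.symm)
    simp only [f, e]
    split_ifs with b
    · rw [th_eq, h.mul, h.mul, un_cj (inv h t) b.1 (sb_tr (ln_vy _).2 b).1, sg, trace_mul_cycle,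
        ← h.mul, mul_inv_cancel, h.one, one_mul, sg]
    · rfl

/-- **the Brauer relation**, for all systems of representatives -/
theorem bra' [Fintype κ] (h : Rh ρ S) (F : Fam ρ x jL) (im : Im j ρ)
    (hΓ : ∀ i g, g ∈ Γ' i ↔ g ∈ GK j ∧ g ∈ GK (jL i)) (hT : ∀ i, Rp (GK j) (Γ' i) (T i)) (s : ℂ)
    {g : GQ} (hg : g ∈ GK j) : 2 * ts s (ρ g) + 2 * ts (-s) (ρ g) +
      ∑ i, ind (Γ' i) (T i) (fun g => th 0 (ρ g)) g =
      ∑ i, ind (Γ' i) (T i) (fun g => th 1 (ρ g)) g +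
        ∑ i, ind (Γ' i) (T i) (fun g => th 2 (ρ g)) g := by
  simp only [ind_sum h F im hΓ hT _ hg]
  generalize ρ g = a
  have k := congrArg (Int.cast (R := ℂ)) (tab (a 0 0) (a 0 1) (a 1 0) (a 1 1))
  rw [← eta_fin_two, ← det_fin_two, ← trace_fin_two, Int.cast_sum] at k
  have e : 2 * ts s a + 2 * ts (-s) a = _ := Eq.trans (by
    simp only [ts]
    split_ifs <;> push_cast <;> ring) k
  rw [e, ← Finset.sum_add_distrib, ← Finset.sum_add_distrib]
  refine Finset.sum_congr rfl fun y _ => ?_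
  have t : ∀ b : ZMod 3, b ≠ 0 → (b.val = 1 ∧ (-b).val = 2) ∨ (b.val = 2 ∧ (-b).val = 1) := by decide
  by_cases b : Sb (vy y) a
  · rw [if_pos b, if_pos b, if_pos b, if_pos ⟨b.1, b.2⟩, sg]
    split_ifs with c
    · rw [c, neg_zero, ZMod.val_zero]; push_cast; ring
    · rcases t _ c with t | t <;> rw [t.1, t.2] <;> push_cast <;>
        linear_combination (-((-a.trace).valMinAbs : ℂ) * (ze 3 1 ^ 2 - ze 3 1 + 2)) * ze_sum
  · rw [if_neg b, if_neg b, if_neg b, if_neg fun z => b ⟨z.1, z.2⟩]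
    simp

/-- **the Brauer relation** -/
theorem bra [NumberField K] [∀ i, NumberField (L i)] [Fintype κ] (h : Rh ρ S) (F : Fam ρ x jL)
    (im : Im j ρ) (Γ' : κ → Subgroup GQ) (hΓ : ∀ i g, g ∈ Γ' i ↔ g ∈ GK j ∧ g ∈ GK (jL i)) (s : ℂ) :
    ∃ T : κ → Finset GQ, (∀ i, Rp (GK j) (Γ' i) (T i)) ∧ ∀ g ∈ GK j,
      2 * ts s (ρ g) + 2 * ts (-s) (ρ g) + ∑ i, ind (Γ' i) (T i) (fun g => th 0 (ρ g)) g =
      ∑ i, ind (Γ' i) (T i) (fun g => th 1 (ρ g)) g +
        ∑ i, ind (Γ' i) (T i) (fun g => th 2 (ρ g)) g := by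
  choose T hT using fun i => ex_rp (GK j) (Γ' := Γ' i) (fun g a => ((hΓ i g).1 a).1) (by
    rw [show Γ' i = GK j ⊓ GK (jL i) from Subgroup.ext (hΓ i)]
    exact (P022.H916.isOpen_GK j).inter (P022.H916.isOpen_GK _))
  exact ⟨T, hT, fun g => bra' h F im hΓ hT s⟩

end Vale.Agent.P014Y.Br
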