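import Vale.Agent.P014Y.Br.Rs1
import Vale.Agent.P004C.Wa.ThaH

/-!
# P014 Y, block BR: conjugate systems and Hecke relations
-/

set_option linter.all false

open NumberField Module Ideal IsDedekindDomain
open scoped Classical ComplexConjugate

noncomputable section

namespace Vale.Agent.P014Y.Br

open Vale.Agent.P022 (Qb GQ GK below)
open Vale.Agent.P027M.S (Pr Inert)
open Vale.Agent.P022E.GW (Ov Fb)
open Vale.Agent.P004C.Al (Cm)
open Vale.Agent.P004C.Wa Vale.Agent.P004C.Wa.Co
open Vale.Agent.P004C.Wa.Th (Hd)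
open Rs

variable {m : ℕ} {σ : GQ → M2} {ε A : ℕ → ℂ}

/-- the conjugate system -/
theorem Sy.cj (h : Sy m σ ε A) :
    Sy m (fun g => (σ g).map conj) (fun n => conj (ε n)) fun n => conj (A n) where
  one := by rw [h.one, Matrix.map_one _ (map_zero _) (map_one _)]
  mul g k := by rw [h.mul, Matrix.map_mul]
  fin := h.fin.imp fun N k => ⟨k.1, fun g => by
    rw [← Matrix.map_pow, k.2, Matrix.map_one _ (map_zero _) (map_one _)]⟩
  unr l P i a b c := by rw [h.unr l P i a b c, Matrix.map_one _ (map_zero _) (map_one _)]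
  frb l P g a b c := by
    rw [(h.frb l P g a b c).1, (h.frb l P g a b c).2, RingHom.map_det]
    exact ⟨by simp [Matrix.trace_fin_two], rfl⟩
  e1 := by rw [h.e1, map_one]
  em a b := by rw [h.em, map_mul]
  a1 := by rw [h.a1, map_one]
  hk l a b n c := by simpa [apply_ite] using congrArg conj (h.hk l a b n c)

/-- the Hecke relation from the recursion -/
theorem hd_hk (h : Hd ε A) {l : ℕ} (hl : l.Prime) {n : ℕ} (hn : n ≠ 0) :
    A (l * n) + ε l * (if l ∣ n then A (n / l) else 0) = A l * A n := by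
  obtain ⟨i, k, d, rfl⟩ := Nat.exists_eq_pow_mul_and_not_dvd hn l hl.ne_one
  have c : ∀ i, A (l ^ i * k) = A (l ^ i) * A k := fun i =>
    h.mul _ _ (((Nat.Prime.coprime_iff_not_dvd hl).2 d).pow_left i)
  cases i with
  | zero => simpa [d] using c 1
  | succ i =>
    rw [if_pos ((dvd_pow_self l i.succ_ne_zero).mul_right k), ← mul_assoc, ← pow_succ',
      show l ^ (i + 1) * k / l = l ^ i * k by
        rw [pow_succ', mul_assoc, Nat.mul_div_cancel_left _ hl.pos], c, c, c, h.rc l i hl]
    ring

end Vale.Agent.P014Y.Br
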