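import Vale.Agent.P014Y.Br.Ind
import Vale.Agent.P014Y.Br.Bra
import Vale.Agent.P014Y.Br.Rq
import Vale.Agent.P014Y.W1.Lf

/-!
# P014 Y, block BR: the relation between the series
-/

set_option linter.all false

open NumberField Module Ideal IsDedekindDomain
open scoped Classical ComplexConjugate NumberTheorySymbols

noncomputable section

namespace Vale.Agent.P014Y.Br

open Vale.Agent.P022 (Qb GQ GK below IsFrob)
open Vale.Agent.P027M.S (Pr Inert)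
open Vale.Agent.P022E.GW (Ov Fb)
open Vale.Agent.P004C.Al (Cm Ic Rm)
open Vale.Agent.P004C.Wa (Kd co dp)
open Vale.Agent.P004C.Wa.Th (Hd)
open Tp (G3 Rh Fam Im Cp Sb th ts)
open Fe (LA Li cj)

section

variable {K M : Type} [Field K] [NumberField K] [Field M] [NumberField M] {j : K →+* Qb}
  {jM : M →+* Qb} {θ : GQ → ℂ} {χ : Ideal (𝓞 M) → ℂ} {lam : Ideal (𝓞 K) → ℂ}

theorem ic_le (hχ : Ic jM θ χ) (h1 : ∀ g ∈ GK jM, ‖θ g‖ ≤ 1) (I : Ideal (𝓞 M)) : ‖χ I‖ ≤ 1 := by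
  induction I using UniqueFactorizationMonoid.induction_on_prime with
  | h₁ => rw [zero_eq_bot, hχ.bot, norm_zero]; exact zero_le_one
  | h₂ I u => rw [isUnit_iff_eq_one.1 u, hχ.cm.one, norm_one]
  | h₃ I Q _ q ih =>
    rw [hχ.cm.mul, norm_mul]
    refine mul_le_one₀ ?_ (norm_nonneg _) ih
    obtain ⟨l, P, hP, e⟩ := ex_pl jM ⟨Q, isPrime_of_prime q, q.ne_zero⟩
    rw [show Q = below jM P from e.symm]
    by_cases r : Rm jM θ P
    · rw [hχ.ram l P hP r, norm_zero]; exact zero_le_one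
    · obtain ⟨g, hg, fg⟩ := ex_fr jM hP
      rw [hχ.unr l P hP r g hg fg]
      exact h1 g hg

theorem ic_cj (hχ : Ic jM θ χ) : Ic jM (fun g => conj (θ g)) (cj χ) where
  cm := ⟨by rw [cj, hχ.cm.one, map_one], fun I J => by rw [cj, cj, cj, hχ.cm.mul, map_mul]⟩
  bot := by rw [cj, hχ.bot, map_zero]
  ram l P o := fun ⟨g, a, b, c⟩ => by
    rw [cj, hχ.ram l P o ⟨g, a, b, fun e => c (by simp only [e, map_one])⟩, map_zero]
  unr l P o r g a b := congrArg conj (hχ.unr l P o (fun ⟨g, a, b, c⟩ =>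
    r ⟨g, a, b, fun e => c (by simpa using congrArg conj e)⟩) g a b)

variable [Algebra K M]

theorem Dc.of_ic (com : ∀ x, jM (algebraMap K M x) = j x)
    (mul : ∀ g ∈ GK jM, ∀ h ∈ GK jM, θ (g * h) = θ g * θ h) (le : ∀ g ∈ GK jM, ‖θ g‖ ≤ 1)
    (hχ : Ic jM θ χ) (unr : ∀ l P, Ov l P → lam (below j P) ≠ 0 → ∀ g ∈ GK j, Inert P g →
      g ∈ GK jM ∧ θ g = 1) : Dc j jM θ χ lam :=
  ⟨com, mul, le, hχ.cm, ic_le hχ le, fun l P o z g a b => (unr l P o z g a b).1,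
    fun l P o z g f => hχ.unr l P o (fun ⟨t, a, b, c⟩ =>
      c (unr l P o z t (P004C.Al.Rc.gk_le com a) b).2) g f.1 f.2⟩

theorem Dc.cj (D : Dc j jM θ χ lam) : Dc j jM (fun g => conj (θ g)) (cj χ) lam :=
  ⟨D.com, fun g a h b => by rw [D.mul g a h b, map_mul],
    fun g a => by rw [RCLike.norm_conj]; exact D.le g a,
    ⟨by rw [Fe.cj, D.cm.one, map_one], fun I J => by rw [Fe.cj, Fe.cj, Fe.cj, D.cm.mul, map_mul]⟩,
    fun I => by rw [Fe.cj, RCLike.norm_conj]; exact D.one I, D.unr,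
    fun l P o z g f => congrArg conj (D.val l P o z g f)⟩

/-- a character of a subfield composed with the norm -/
theorem Dc.of_nm {L : Type} [Field L] [NumberField L] [Algebra L M] {jL : L →+* Qb}
    {ψ : Ideal (𝓞 L) → ℂ} (C : Cp j jL jM)
    (mul : ∀ g ∈ GK jL, ∀ h ∈ GK jL, θ (g * h) = θ g * θ h) (le : ∀ g ∈ GK jL, ‖θ g‖ ≤ 1)
    (hψ : Ic jL θ ψ) (unr : ∀ l P, Ov l P → lam (below j P) ≠ 0 → ∀ g, Inert P g →
      g ∈ GK jL ∧ θ g = 1) : Dc j jM θ (fun I => ψ (relNorm (𝓞 L) I)) lam := by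
  have gl := P004C.Al.Rc.gk_le C.cL
  refine ⟨C.cK, fun g a h b => mul g (gl a) h (gl b), fun g a => le g (gl a),
    ⟨by rw [map_one, hψ.cm.one], fun I J => by rw [map_mul, hψ.cm.mul]⟩, fun I => ic_le hψ le _,
    fun l P o z g a b => (C.gM g).2 ⟨a, (unr l P o z g b).1⟩, fun l P o z g f => ?_⟩
  obtain ⟨φ, hφ⟩ := ex_fr jL o
  have e := P004C.Al.Rc.rel_pr (M := L) (P022K.GW.Pl.dn jM l P o)
  rw [dw_dn C.cL o] at e
  obtain ⟨n, hn⟩ := Nat.exists_eq_succ_of_ne_zero (dg_pos (K := L) (P022K.GW.Pl.dn jM l P o)).ne'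
  have i := Fr.inert o (by have := two_le jM o; omega) f.2 (nm_eq C.cL o ▸
    P022K.GW.Pl.pw (hφ.dec o) hφ.2 (dg L (below jM P)))
  have u := unr l P o z _ i
  have k := mul _ (pow_mem hφ.1 (dg L (below jM P))) _ u.1
  rw [mul_inv_cancel_left, u.2, mul_one] at k
  refine (congrArg ψ e).trans ?_
  rw [hψ.cm.pow, hψ.unr l P o (fun ⟨t, _, b, c⟩ => c (unr l P o z t b).2) φ hφ.1 hφ.2, k]
  show θ φ ^ dg L (below jM P) = _
  rw [show dg L (below jM P) = n + 1 from hn, th_pw mul hφ.1]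

end

variable {ρ : GQ → G3} {S : Finset ℕ} {κ : Type} {x : κ → Fin 2 → ZMod 3} {L : κ → Type}
  [∀ i, Field (L i)] {jL : ∀ i, L i →+* Qb} {K : Type} [Field K] [NumberField K] {j : K →+* Qb}
  {M : κ → Type} [∀ i, Field (M i)] [∀ i, NumberField (M i)] [∀ i, Algebra K (M i)]
  {jM : ∀ i, M i →+* Qb} {lam : Ideal (𝓞 K) → ℂ} {m : ℕ}

theorem th_hom (h : Rh ρ S) (F : Fam ρ x jL) (k : ℕ) (i : κ) :
    ∀ g ∈ GK (jL i), ∀ g' ∈ GK (jL i), th k (ρ (g * g')) = th k (ρ g) * th k (ρ g') :=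
  fun g a g' b => by rw [h.mul, th_mul k (F.ne i) ((F.gL i g).1 a) ((F.gL i g').1 b)]

theorem th_unr (h : Rh ρ S) (F : Fam ρ x jL) (sm : ∀ l ∈ S, l ∣ m)
    (lm : ∀ I, ¬ (absNorm I).Coprime m → lam I = 0) (k : ℕ) (i : κ) (l : ℕ) (P : Ideal (𝓞 Qb))
    (o : Ov l P) (z : lam (below j P) ≠ 0) (g : GQ) (b : Inert P g) :
    g ∈ GK (jL i) ∧ th k (ρ g) = 1 := by
  have e : ρ g = 1 := h.unr g ⟨l, fun a => z (lm _ fun c => (Nat.Prime.coprime_iff_not_dvd o.1).1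
    (c.coprime_dvd_left (P004C.Wa.Co.dvd_nm o.1 (P022.H20.below_prime j o.2.1).ne_top
      (P022.H20.l_mem_below j o.2.2))) (sm l a)), P, o, b⟩
  rw [F.gL, e]
  exact ⟨⟨Matrix.det_one, .inl (Matrix.one_mulVec _)⟩, th_one k⟩

/-- characters of the composita -/
theorem dc_ic (h : Rh ρ S) (F : Fam ρ x jL) (sm : ∀ l ∈ S, l ∣ m)
    (lm : ∀ I, ¬ (absNorm I).Coprime m → lam I = 0) {k : ℕ} {i : κ}
    (com : ∀ y, jM i (algebraMap K (M i) y) = j y)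
    (gM : ∀ g, g ∈ GK (jM i) ↔ g ∈ GK j ∧ g ∈ GK (jL i)) {χ : Ideal (𝓞 (M i)) → ℂ}
    (hχ : Ic (jM i) (fun g => th k (ρ g)) χ) : Dc j (jM i) (fun g => th k (ρ g)) χ lam :=
  .of_ic com (fun g a g' b => th_hom h F k i g ((gM g).1 a).2 g' ((gM g').1 b).2)
    (fun _ _ => th_norm k _) hχ fun l P o z g a b =>
      ⟨(gM g).2 ⟨a, (th_unr h F sm lm k i l P o z g b).1⟩, (th_unr h F sm lm k i l P o z g b).2⟩

/-- characters of the fields of the lines composed with the norm -/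
theorem dc_nm (h : Rh ρ S) (F : Fam ρ x jL) (sm : ∀ l ∈ S, l ∣ m)
    (lm : ∀ I, ¬ (absNorm I).Coprime m → lam I = 0) {k : ℕ} {i : κ} [NumberField (L i)]
    [Algebra (L i) (M i)] (C : Cp j (jL i) (jM i)) {ψ : Ideal (𝓞 (L i)) → ℂ}
    (hψ : Ic (jL i) (fun g => th k (ρ g)) ψ) :
    Dc j (jM i) (fun g => th k (ρ g)) (fun I => ψ (relNorm (𝓞 (L i)) I)) lam :=
  .of_nm C (th_hom h F k i) (fun _ _ => th_norm k _) hψ (th_unr h F sm lm k i)

/-- **the relation** -/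
theorem brl [Fintype κ] (h : Rh ρ S) (F : Fam ρ x jL) (im : Im j ρ)
    (gM : ∀ i g, g ∈ GK (jM i) ↔ g ∈ GK j ∧ g ∈ GK (jL i)) (hw : Wt lam)
    {χ₀ χ₁ : ∀ i, Ideal (𝓞 (M i)) → ℂ} (D₀ : ∀ i, Dc j (jM i) (fun g => th 0 (ρ g)) (χ₀ i) lam)
    (D₁ : ∀ i, Dc j (jM i) (fun g => th 1 (ρ g)) (χ₁ i) lam) (s : ℂ) :
    (Complex.exp (lg j (fun g => ts s (ρ g)) lam) *
      Complex.exp (lg j (fun g => ts (-s) (ρ g)) lam)) ^ 2 *
        ∏ i, ∑' I, χ₀ i I * lam (relNorm (𝓞 K) I) =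
      ∏ i, (∑' I, χ₁ i I * lam (relNorm (𝓞 K) I)) * ∑' I, cj (χ₁ i) I * lam (relNorm (𝓞 K) I) := by
  choose T hT using fun i => ex_rp (GK j) (P004C.Al.Rc.gk_le (D₀ i).com)
    (P022.H916.isOpen_GK (jM i))
  have D₂ : ∀ i, Dc j (jM i) (fun g => th 2 (ρ g)) (cj (χ₁ i)) lam := fun i => by
    simpa only [th_two] using (D₁ i).cj
  have b : ∀ k, Bd fun g => ∑ i, ind (GK (jM i)) (T i) (fun g => th k (ρ g)) g :=
    fun k => Bd.sum _ fun i => ind_bd fun _ _ => th_norm k _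
  have t : ∀ s, Bd fun g => 2 * ts s (ρ g) := fun s => .of_fin ρ fun a => 2 * ts s a
  have e := lg_congr' (lam := lam) fun g hg => bra' h F im gM hT s (g := g) hg
  rw [lg_add hw ((t s).add (t (-s))) (b 0), lg_add hw (t s) (t (-s)), lg_add hw (b 1) (b 2),
    lg_smul, lg_smul] at e
  rw [Finset.prod_mul_distrib, ind_fam D₀ hT hw, ind_fam D₁ hT hw, ind_fam D₂ hT hw,
    ← Complex.exp_add, ← Complex.exp_add, ← e, sq, ← Complex.exp_add, ← Complex.exp_add]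
  congr 1
  ring

/-- `A` is the system of coefficients of the lift of `ρ` -/
structure Wd (ρ : GQ → G3) (S : Finset ℕ) (s : ℂ) (m : ℕ) (ε A : ℕ → ℂ) : Prop where
  rh : Rh ρ S
  sq : s ^ 2 = -2
  m1 : m ≠ 1
  sm : ∀ l ∈ S, l ∣ m
  hd : Hd ε A
  re : ∀ n, conj (ε n) = ε n
  ep : ∀ l, l.Prime → ¬ l ∣ m → ε l = J(l | 3)
  fr : ∀ l, l.Prime → l ∉ S → ∀ g, IsFrob l g → A l = ts s (ρ g) ∧ (ρ g).det = l

open W1 (lf tm lf_trace lf_det O2) in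
theorem lift_tr {s : ℂ} (hs : -s * -s = ((-2 : ℤ) : ℂ)) {a : G3} (h : a.det ≠ 0) :
    Zsqrtd.lift ⟨-s, hs⟩ (W1.lf a).trace = ts s a := by
  have k : ∀ a d : ZMod 3, a * d = 1 → (a = 1 ∧ d = 1 ∨ a = -1 ∧ d = -1) ∧
    2 * tm a = -2 * tm (a + d) := by decide
  rw [lf_trace, ts, if_neg h]
  split_ifs with p b c c
  · rw [Matrix.det_fin_two, b.1, zero_mul, sub_zero] at p
    rw [Zsqrtd.lift_apply_apply, (k _ _ p).2, Matrix.trace_fin_two]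
    simp [tm]
  · rw [Matrix.det_fin_two, b.1, zero_mul, sub_zero] at p
    refine (c ((k _ _ p).1.imp (fun e => ?_) fun e => ?_)).elim <;>
      rw [Matrix.eta_fin_two a, b.1, b.2, e.1, e.2] <;> decide
  · rcases c with rfl | rfl <;> simp at b
  · simp [tm]
  · simp [tm, mul_comm]

variable {s : ℂ} {ε A : ℕ → ℂ}

theorem ts_cj (hs : s ^ 2 = -2) (a : G3) : conj (ts s a) = ts (-s) a := by
  have e : conj s = -s := by
    have r := congrArg Complex.re hs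
    have i := congrArg Complex.im hs
    simp [sq] at r i
    have : s.re = 0 := by
      rcases mul_eq_zero.1 (show s.re * s.im = 0 by linarith) with z | z
      · exact z
      · rw [z] at r; nlinarith [sq_nonneg s.re]
    apply Complex.ext <;> simp [this]
  unfold ts
  split_ifs <;> simp [e, map_ofNat]

/-- the lifts as complex representations -/
theorem Wd.sy (W : Wd ρ S s m ε A) : ∃ σ σ', Sy m σ ε A ∧ Sy m σ' ε (fun n => conj (A n)) ∧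
    (fun g => (σ g).trace) = (fun g => ts s (ρ g)) ∧
      (fun g => (σ' g).trace) = fun g => ts (-s) (ρ g) := by
  have h := W.rh
  have hs : -s * -s = ((-2 : ℤ) : ℂ) := by push_cast; linear_combination W.sq
  let φ : W1.O2 →+* ℂ := Zsqrtd.lift ⟨-s, hs⟩
  let r : GQ →* G3 := ⟨⟨ρ, h.one⟩, h.mul⟩
  let σ : GQ →* Rs.M2 := φ.mapMatrix.toMonoidHom.comp (W1.lf.comp r)
  have tr : ∀ g, (σ g).trace = ts s (ρ g) := fun g => by
    rw [← lift_tr hs (Ba.dne h g)]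
    simp [σ, r, φ, Matrix.trace_fin_two]
    ring
  have y : Sy m σ ε A := by
    refine ⟨σ.map_one, σ.map_mul, ⟨Nat.card G3ˣ, Nat.card_pos, fun g => ?_⟩,
      fun l P i o d b => ?_, fun l P g o d f => ?_, W.hd.e1, W.hd.em, W.hd.one,
      fun l a _ n c => hd_hk W.hd a fun z => W.m1 (by rwa [z, Nat.coprime_zero_left] at c)⟩
    · have : r (g ^ Nat.card G3ˣ) = 1 := by
        rw [map_pow, ← MonoidHom.coe_toHomUnits, ← Units.val_pow_eq_pow_val, pow_card_eq_one',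
          Units.val_one]
      rw [← map_pow, MonoidHom.comp_apply, MonoidHom.comp_apply, this, map_one, map_one]
    · rw [MonoidHom.comp_apply, MonoidHom.comp_apply,
        show r i = 1 from h.unr i ⟨l, fun a => d (W.sm l a), P, o, b⟩, map_one, map_one]
    · obtain ⟨u, w⟩ := W.fr l o.1 (fun a => d (W.sm l a)) g ⟨P, o.2.1, o.2.2, f⟩
      refine ⟨u.trans (tr g).symm, ?_⟩
      rw [W.ep l o.1 d, show (σ g).det = φ (W1.lf (ρ g)).det from (φ.map_det _).symm, W1.lf_det,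
        map_intCast, w, ← jacobiSym.legendreSym.to_jacobiSym, ← Int.cast_natCast]
      exact congrArg _ ((by decide : ∀ y : ZMod 3, W1.tm y = quadraticChar (ZMod 3) y) _).symm
  refine ⟨σ, _, y, by simpa only [W.re] using y.cj, funext tr, funext fun g => ?_⟩
  rw [← ts_cj W.sq, ← tr]
  simp [Matrix.trace_fin_two]

/-- **the relation over the rationals** -/
theorem brq [Fintype κ] [∀ i, NumberField (L i)] (W : Wd ρ S s m ε A) (F : Fam ρ x jL)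
    (dep : ∀ k, ¬ k.Coprime m → A k = 0) {ψ₀ ψ₁ : ∀ i, Ideal (𝓞 (L i)) → ℂ}
    (h₀ : ∀ i, Ic (jL i) (fun g => th 0 (ρ g)) (ψ₀ i))
    (h₁ : ∀ i, Ic (jL i) (fun g => th 1 (ρ g)) (ψ₁ i)) {z : ℂ} (hz : 1 < z.re) :
    (LA A z * LA (fun k => conj (A k)) z) ^ 2 * ∏ i, Li (dp m (ψ₀ i)) z =
      ∏ i, Li (dp m (ψ₁ i)) z * Li (dp m (cj (ψ₁ i))) z := by
  obtain ⟨σ, σ', y, y', t, t'⟩ := W.sy
  have top : ∀ g, g ∈ GK (algebraMap ℚ Qb) := fun g q => g.commutes q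
  have gM : ∀ i g, g ∈ GK (jL i) ↔ g ∈ GK (algebraMap ℚ Qb) ∧ g ∈ GK (jL i) :=
    fun i g => (and_iff_right (top g)).symm
  have cm : ∀ i q, jL i (algebraMap ℚ (L i) q) = algebraMap ℚ Qb q := fun i q => by simp
  have li : ∀ i (ψ : Ideal (𝓞 (L i)) → ℂ),
      Li (dp m ψ) z = ∑' I, ψ I * wn ℚ m z (relNorm (𝓞 ℚ) I) := fun i ψ => tsum_congr fun I => by
    rw [wn, absNorm_relNorm, dp, Fe.xs]
    split_ifs <;> simp
  simp only [li]
  rw [rs1 (algebraMap ℚ Qb) y dep hz, rs1 (algebraMap ℚ Qb) y' (fun k c => by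
    rw [dep k c, map_zero]) hz, t, t']
  exact brl W.rh F (fun g => ⟨g, top g, rfl⟩) gM (wn_wt hz)
    (fun i => dc_ic W.rh F W.sm (wn_off z) (cm i) (gM i) (h₀ i))
    (fun i => dc_ic W.rh F W.sm (wn_off z) (cm i) (gM i) (h₁ i)) s

variable {J : K →+* ℂ} {D : ℕ} {θ : 𝓞 K}

/-- **the relation over an imaginary quadratic field** -/
theorem brk [Fintype κ] (W : Wd ρ S s m ε A) (F : Fam ρ x jL) (hK : Kd J D θ) (im : Im j ρ)
    (gM : ∀ i g, g ∈ GK (jM i) ↔ g ∈ GK j ∧ g ∈ GK (jL i)) (hw : Wt lam)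
    (lm : ∀ I, ¬ (absNorm I).Coprime m → lam I = 0)
    {χ₀ χ₁ : ∀ i, Ideal (𝓞 (M i)) → ℂ} (D₀ : ∀ i, Dc j (jM i) (fun g => th 0 (ρ g)) (χ₀ i) lam)
    (D₁ : ∀ i, Dc j (jM i) (fun g => th 1 (ρ g)) (χ₁ i) lam) :
    ((∑' k : ℕ, ε k * J(k | D) * lam (span {(k : 𝓞 K)})) ^ 2 *
      ((∑' k, A k * co lam k) * ∑' k, conj (A k) * co lam k)) ^ 2 *
        ∏ i, ∑' I, χ₀ i I * lam (relNorm (𝓞 K) I) =
      ∏ i, (∑' I, χ₁ i I * lam (relNorm (𝓞 K) I)) * ∑' I, cj (χ₁ i) I * lam (relNorm (𝓞 K) I) := by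
  obtain ⟨σ, σ', y, y', t, t'⟩ := W.sy
  rw [← brl W.rh F im gM hw D₀ D₁ s, ← t, ← t', ← rs2 hK j y hw lm, ← rs2 hK j y' hw lm]
  ring

/-- the same in the shape of the period formula -/
theorem brs [Fintype κ] (W : Wd ρ S s m ε A) (F : Fam ρ x jL) (hK : Kd J D θ) (im : Im j ρ)
    (gM : ∀ i g, g ∈ GK (jM i) ↔ g ∈ GK j ∧ g ∈ GK (jL i)) {a : Ideal (𝓞 K) → ℂ} (ha : Cm a)
    (a0 : a ⊥ = 0) (ab : ∀ I, ‖a I‖ ≤ 1)
    (ae : ∀ k : ℕ, k ≠ 0 → k.Coprime m → ε k * a (span {(k : 𝓞 K)}) = (k : ℂ)⁻¹) {z : ℂ}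
    (hz : 1 < z.re) {χ₀ χ₁ : ∀ i, Ideal (𝓞 (M i)) → ℂ}
    (D₀ : ∀ i, Dc j (jM i) (fun g => th 0 (ρ g)) (χ₀ i) (ws m a z))
    (D₁ : ∀ i, Dc j (jM i) (fun g => th 1 (ρ g)) (χ₁ i) (ws m a z)) :
    ((∑' v : ℕ, (if v.Coprime m then (J(v | D) : ℂ) else 0) * (v : ℂ) ^ (-1 - 2 * z)) ^ 2 *
      ((∑' k : ℕ, (if k.Coprime m then A k else 0) * co a k * (k : ℂ) ^ (-z)) *
        ∑' k : ℕ, (if k.Coprime m then conj (A k) else 0) * co a k * (k : ℂ) ^ (-z))) ^ 2 *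
        ∏ i, Li (dp m fun I => χ₀ i I * a (relNorm (𝓞 K) I)) z =
      ∏ i, Li (dp m fun I => χ₁ i I * a (relNorm (𝓞 K) I)) z *
        Li (dp m fun I => cj (χ₁ i) I * a (relNorm (𝓞 K) I)) z := by
  obtain ⟨σ, σ', y, y', t, t'⟩ := W.sy
  have li : ∀ i (ψ : Ideal (𝓞 (M i)) → ℂ), Li (dp m fun I => ψ I * a (relNorm (𝓞 K) I)) z =
      ∑' I, ψ I * ws m a z (relNorm (𝓞 K) I) := fun i ψ => tsum_congr fun I => by
    rw [ws, dp, dp, absNorm_relNorm, Fe.xs]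
    split_ifs <;> simp [mul_assoc]
  simp only [li]
  rw [← brl W.rh F im gM (ws_wt ha a0 ab hz) D₀ D₁ s, ← t, ← t', ← rs hK j y ha a0 ab ae hz,
    ← rs hK j y' ha a0 ab ae hz]
  ring

theorem ws_off (a : Ideal (𝓞 K) → ℂ) (z : ℂ) (I : Ideal (𝓞 K)) (c : ¬ (absNorm I).Coprime m) :
    ws m a z I = 0 := by rw [ws, dp, if_neg c, zero_mul]

end Vale.Agent.P014Y.Br
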