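import Vale.Agent.P004C.Al.Nm
import Vale.Agent.P004C.Al.Eul

/-!
# P014 Y, block BR: logarithms of Euler products
-/

set_option linter.all false

open NumberField IsDedekindDomain Filter Topology
open scoped Classical

noncomputable section

namespace Vale.Agent.P014Y.Br

open Vale.Agent.P022 (Qb GQ GK below)
open Vale.Agent.P027M.S (Pr Inert)
open Vale.Agent.P022E.GW (Ov)
open Vale.Agent.P004C.Al (Cm)

section

variable {K : Type} [Field K] [NumberField K]

/-- `g` is a Frobenius element of `K` at the place `P` -/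
def Fr (j : K →+* Qb) (P : Ideal (𝓞 Qb)) (g : GQ) : Prop :=
  g ∈ GK j ∧ ∀ x : 𝓞 Qb, g • x - x ^ Ideal.absNorm (below j P) ∈ P

theorem ex_pl (j : K →+* Qb) (v : Pr K) : ∃ l P, Ov l P ∧ below j P = v.asIdeal := by
  obtain ⟨l, P, h, e⟩ := P022K.GW.Pl.dn_onto j v
  exact ⟨l, P, h, congrArg HeightOneSpectrum.asIdeal e⟩

theorem ex_fr (j : K →+* Qb) {l : ℕ} {P : Ideal (𝓞 Qb)} (h : Ov l P) : ∃ g, Fr j P g := by
  obtain ⟨g, hg⟩ := P022.H916.exists_frob j h.2.1 h.1 h.2.2
  exact ⟨g, g.2, hg⟩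

/-- a place above `v` and a Frobenius element there -/
def pf (j : K →+* Qb) (v : Pr K) : Ideal (𝓞 Qb) × GQ :=
  Classical.epsilon fun z => (∃ l, Ov l z.1) ∧ below j z.1 = v.asIdeal ∧ Fr j z.1 z.2

/-- the chosen place above `v` -/
def pl (j : K →+* Qb) (v : Pr K) : Ideal (𝓞 Qb) := (pf j v).1

/-- the chosen Frobenius element -/
def fr (j : K →+* Qb) (v : Pr K) : GQ := (pf j v).2

theorem fr_spec (j : K →+* Qb) (v : Pr K) :
    (∃ l, Ov l (pl j v)) ∧ below j (pl j v) = v.asIdeal ∧ Fr j (pl j v) (fr j v) := by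
  obtain ⟨l, P, hP, e⟩ := ex_pl j v
  obtain ⟨g, h⟩ := ex_fr j hP
  exact Classical.epsilon_spec (p := fun z : Ideal (𝓞 Qb) × GQ => (∃ l, Ov l z.1) ∧
    below j z.1 = v.asIdeal ∧ Fr j z.1 z.2) ⟨(P, g), ⟨l, hP⟩, e, h⟩

theorem fr_mem (j : K →+* Qb) (v : Pr K) : fr j v ∈ GK j := (fr_spec j v).2.2.1

end

/-- the logarithm of a local factor -/
def lf (c : GQ → ℂ) (g : GQ) (x : ℂ) : ℂ := ∑' n : ℕ, c (g ^ n) * x ^ n / n

/-- the logarithm of the Euler product of the class function `c` with weight `lam` -/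
def lg {K : Type} [Field K] [NumberField K] (j : K →+* Qb) (c : GQ → ℂ)
    (lam : Ideal (𝓞 K) → ℂ) : ℂ := ∑' v : Pr K, lf c (fr j v) (lam v.asIdeal)

/-- weights in the domain of absolute convergence -/
structure Wt {K : Type} [Field K] [NumberField K] (lam : Ideal (𝓞 K) → ℂ) : Prop where
  cm : Cm lam
  bot : lam ⊥ = 0
  le : ∃ r : ℝ, 1 < r ∧ ∀ I, ‖lam I‖ ≤ (Ideal.absNorm I : ℝ) ^ (-r)

/-- bounded functions -/
def Bd (c : GQ → ℂ) : Prop := ∃ C : ℝ, ∀ g, ‖c g‖ ≤ C

theorem Bd.add {c d : GQ → ℂ} (hc : Bd c) (hd : Bd d) : Bd fun g => c g + d g := by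
  obtain ⟨C, hC⟩ := hc
  obtain ⟨D, hD⟩ := hd
  exact ⟨C + D, fun g => (norm_add_le _ _).trans (add_le_add (hC g) (hD g))⟩

theorem Bd.mul {c d : GQ → ℂ} (hc : Bd c) (hd : Bd d) : Bd fun g => c g * d g := by
  obtain ⟨C, hC⟩ := hc
  obtain ⟨D, hD⟩ := hd
  exact ⟨C * D, fun g => (norm_mul_le _ _).trans
    (mul_le_mul (hC g) (hD g) (norm_nonneg _) ((norm_nonneg _).trans (hC g)))⟩

theorem Bd.const (a : ℂ) : Bd fun _ => a := ⟨‖a‖, fun _ => le_rfl⟩

theorem Bd.sum {ι : Type} (s : Finset ι) {c : ι → GQ → ℂ} (h : ∀ i, Bd (c i)) :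
    Bd fun g => ∑ i ∈ s, c i g := by
  choose C hC using h
  exact ⟨∑ i ∈ s, C i, fun g => (norm_sum_le _ _).trans (Finset.sum_le_sum fun i _ => hC i g)⟩

/-- functions on a finite set are bounded -/
theorem Bd.of_fin {G : Type} [Finite G] (ρ : GQ → G) (t : G → ℂ) : Bd fun g => t (ρ g) := by
  obtain ⟨C, hC⟩ := (Set.finite_range fun x => ‖t x‖).bddAbove
  exact ⟨C, fun g => hC ⟨_, rfl⟩⟩

section

variable {c d : GQ → ℂ} {g : GQ} {x : ℂ} {C : ℝ}

theorem tm_le (hc : ∀ g, ‖c g‖ ≤ C) (hx : ‖x‖ ≤ 1 / 2) (n : ℕ) :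
    ‖c (g ^ n) * x ^ n / n‖ ≤ 2 * C * ‖x‖ * (1 / 2) ^ n := by
  have C0 : 0 ≤ C := (norm_nonneg _).trans (hc 1)
  cases n with
  | zero => simp; positivity
  | succ n =>
    rw [norm_div, norm_mul, norm_pow, Complex.norm_natCast, pow_succ, pow_succ]
    refine (div_le_self (by positivity) (by exact_mod_cast n.succ_pos)).trans ?_
    have := mul_le_mul (hc (g ^ n * g)) (mul_le_mul_of_nonneg_right
      (pow_le_pow_left₀ (norm_nonneg _) hx n) (norm_nonneg x)) (by positivity) C0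
    refine this.trans_eq ?_
    ring

theorem lf_sum (hc : Bd c) (hx : ‖x‖ ≤ 1 / 2) : Summable fun n : ℕ => c (g ^ n) * x ^ n / n := by
  obtain ⟨C, hc⟩ := hc
  exact .of_norm_bounded (summable_geometric_two.mul_left _) (tm_le hc hx)

theorem lf_le (hc : ∀ g, ‖c g‖ ≤ C) (hx : ‖x‖ ≤ 1 / 2) : ‖lf c g x‖ ≤ 4 * C * ‖x‖ :=
  (tsum_of_norm_bounded (hasSum_geometric_two.mul_left _) (tm_le hc hx)).trans_eq (by ring)

theorem lf_zero : lf c g 0 = 0 := by
  refine (tsum_congr fun n => ?_).trans tsum_zero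
  cases n <;> simp

theorem lf_add (hc : Bd c) (hd : Bd d) (hx : ‖x‖ ≤ 1 / 2) :
    lf (fun g => c g + d g) g x = lf c g x + lf d g x := by
  rw [lf, lf, lf, ← (lf_sum hc hx).tsum_add (lf_sum hd hx)]
  exact tsum_congr fun n => by ring

theorem lf_smul (a : ℂ) : lf (fun g => a * c g) g x = a * lf c g x := by
  rw [lf, lf, ← tsum_mul_left]
  exact tsum_congr fun n => by ring

theorem lf_congr {g' : GQ} (h : ∀ n, 0 < n → c (g ^ n) = d (g' ^ n)) : lf c g x = lf d g' x :=
  tsum_congr fun n => by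
    cases n with
    | zero => simp
    | succ n => rw [h _ n.succ_pos]

/-- the local factor of a power sum -/
theorem lf_pow {a : ℂ} (h : ∀ n, 0 < n → c (g ^ n) = a ^ n) (hx : ‖a * x‖ < 1) :
    (1 - a * x) * Complex.exp (lf c g x) = 1 := by
  have e : lf c g x = -Complex.log (1 - a * x) := by
    rw [← (Complex.hasSum_taylorSeries_neg_log hx).tsum_eq]
    refine tsum_congr fun n => ?_
    cases n with
    | zero => simp
    | succ n => rw [h _ n.succ_pos, mul_pow]
  have n : 1 - a * x ≠ 0 := fun z => by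
    rw [← sub_eq_zero.1 z, norm_one] at hx
    exact lt_irrefl _ hx
  rw [e, Complex.exp_neg, Complex.exp_log n, mul_inv_cancel₀ n]

end

/-- products against sums of logarithms -/
theorem prod_exp {V : Type} {q l : V → ℂ} {w : ℂ} (hq : HasProd q w) (hl : Summable l)
    (h : ∀ v, q v * Complex.exp (l v) = 1) : w * Complex.exp (∑' v, l v) = 1 := by
  have := hq.mul hl.hasSum.cexp
  simp only [Function.comp_apply, h] at this
  exact this.unique hasProd_one

section

variable {K : Type} [Field K] [NumberField K] {j : K →+* Qb} {lam : Ideal (𝓞 K) → ℂ}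
  {c d : GQ → ℂ}

theorem Wt.sum (h : Wt lam) : Summable fun I => ‖lam I‖ := by
  obtain ⟨r, hr, h⟩ := h.le
  exact .of_nonneg_of_le (fun _ => norm_nonneg _) h (P004C.Al.sum_norm K hr)

theorem Wt.sum_pr (h : Wt lam) : Summable fun v : Pr K => ‖lam v.asIdeal‖ :=
  h.sum.comp_injective fun _ _ e => HeightOneSpectrum.ext e

theorem Wt.half (h : Wt lam) (v : Pr K) : ‖lam v.asIdeal‖ ≤ 1 / 2 := by
  obtain ⟨r, hr, h⟩ := h.le
  have t : (2 : ℝ) ≤ Ideal.absNorm v.asIdeal := by exact_mod_cast P016Z.EP.two_le_Nv v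
  refine (h _).trans ((Real.rpow_le_rpow_of_exponent_le (by linarith) (neg_le_neg hr.le)).trans ?_)
  rw [Real.rpow_neg_one, one_div]
  exact inv_anti₀ two_pos t

theorem lg_sum (h : Wt lam) (hc : Bd c) :
    Summable fun v : Pr K => lf c (fr j v) (lam v.asIdeal) := by
  obtain ⟨C, hc⟩ := hc
  exact .of_norm_bounded (h.sum_pr.mul_left (4 * C)) fun v => lf_le hc (h.half v)

/-- **additivity** -/
theorem lg_add (h : Wt lam) (hc : Bd c) (hd : Bd d) :
    lg j (fun g => c g + d g) lam = lg j c lam + lg j d lam := by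
  rw [lg, lg, lg, ← (lg_sum h hc).tsum_add (lg_sum h hd)]
  exact tsum_congr fun v => lf_add hc hd (h.half v)

theorem lg_smul (a : ℂ) : lg j (fun g => a * c g) lam = a * lg j c lam := by
  rw [lg, lg, ← tsum_mul_left]
  exact tsum_congr fun v => lf_smul a

theorem lg_fsum (h : Wt lam) {ι : Type} (s : Finset ι) {c : ι → GQ → ℂ} (hc : ∀ i, Bd (c i)) :
    lg j (fun g => ∑ i ∈ s, c i g) lam = ∑ i ∈ s, lg j (c i) lam := by
  induction s using Finset.induction_on with
  | empty => simp [lg, lf]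
  | insert i s hi ih =>
    simp only [Finset.sum_insert hi]
    rw [lg_add h (hc i) (Bd.sum s hc), ih]

/-- only the values at the powers of the Frobenius elements matter -/
theorem lg_congr (h : ∀ v : Pr K, lam v.asIdeal ≠ 0 → ∀ n, 0 < n →
    c (fr j v ^ n) = d (fr j v ^ n)) : lg j c lam = lg j d lam :=
  tsum_congr fun v => by
    by_cases z : lam v.asIdeal = 0
    · rw [z, lf_zero, lf_zero]
    · exact lf_congr (h v z)

theorem lg_congr' (h : ∀ g ∈ GK j, c g = d g) : lg j c lam = lg j d lam :=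
  lg_congr fun v _ n _ => h _ (pow_mem (fr_mem j v) n)

/-- **a product over the primes is the exponential of `lg`** -/
theorem eq_exp (h : Wt lam) (hc : Bd c) {q : Pr K → ℂ} {z : ℂ} (hq : HasProd q z⁻¹)
    (e : ∀ v, q v * Complex.exp (lf c (fr j v) (lam v.asIdeal)) = 1) :
    z = Complex.exp (lg j c lam) := by
  have := prod_exp hq (lg_sum (j := j) h hc) e
  rw [← inv_inv z]
  exact inv_eq_of_mul_eq_one_right this

/-- **Euler product of a series over ideals** -/
theorem euler {F : Ideal (𝓞 K) → ℂ} (hF : Cm F) (h0 : F ⊥ = 0) (hs : Summable fun I => ‖F I‖) :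
    HasProd (fun v : Pr K => 1 - F v.asIdeal) (∑' I, F I)⁻¹ := by
  have e : ∀ m, P016Z.EP.gw (fun v : Pr K => F v.asIdeal) m = F (P016Z.EP.idealEquiv K m).1 := by
    intro m
    show _ = F (m.map HeightOneSpectrum.asIdeal).prod
    induction m using Multiset.induction_on with
    | empty => simpa using hF.one.symm
    | cons v m ih => rw [P016Z.EP.gw_cons, Multiset.map_cons, Multiset.prod_cons, hF.mul, ih]
  have s : Summable fun m => ‖P016Z.EP.gw (fun v : Pr K => F v.asIdeal) m‖ := by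
    simp only [e]
    exact hs.comp_injective (Subtype.val_injective.comp (P016Z.EP.idealEquiv K).injective)
  have t := P016Z.EP.tendsto_prod s
  simp only [e] at t
  rw [(P016Z.EP.idealEquiv K).tsum_eq fun I => F I.1] at t
  rw [← tsum_subtype_eq_of_support_subset (s := {I | I ≠ ⊥}) fun I hI z => hI (z ▸ h0)]
  exact t

end

end Vale.Agent.P014Y.Br
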