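import Vale.Agent.P014Y.Br.Loc

/-!
# P014 Y, block BR: series of a character of an extension and the induced class function
-/

set_option linter.all false

open NumberField IsDedekindDomain
open scoped Classical Pointwise

noncomputable section

namespace Vale.Agent.P014Y.Br

open Vale.Agent.P022 (Qb GQ GK below)
open Vale.Agent.P027M.S (Pr Inert)
open Vale.Agent.P022E.GW (Ov)
open Vale.Agent.P022K.GW Vale.Agent.P004C.Al

theorem lf_fsum {ι : Type} (s : Finset ι) {c : ι → GQ → ℂ} (hc : ∀ i, Bd (c i)) {g : GQ} {x : ℂ}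
    (hx : ‖x‖ ≤ 1 / 2) : lf (fun g => ∑ i ∈ s, c i g) g x = ∑ i ∈ s, lf (c i) g x := by
  induction s using Finset.induction_on with
  | empty => simp [lf]
  | insert i s hi ih =>
    simp only [Finset.sum_insert hi]
    rw [lf_add (hc i) (Bd.sum s hc) hx, ih]

theorem lf_div {c : GQ → ℂ} {g g' : GQ} {x a : ℂ} {f : ℕ} (hf : 0 < f)
    (h1 : ∀ m, 0 < m → c (g ^ (f * m)) = a ^ m) (h2 : ∀ n, ¬ f ∣ n → c (g ^ n) = 0) :
    lf c g x = lf (fun _ => 1) g' (a * x ^ f) / f := by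
  rw [lf, lf, ← tsum_div_const,
    ← (mul_right_injective₀ hf.ne').tsum_eq (f := fun n : ℕ => c (g ^ n) * x ^ n / n)]
  · refine tsum_congr fun m => ?_
    cases m with
    | zero => simp
    | succ m =>
      rw [h1 _ m.succ_pos, one_mul, mul_pow, pow_mul, Nat.cast_mul, div_div, mul_comm (f : ℂ)]
  · intro n hn
    by_contra z
    exact hn (by simp only [h2 n fun ⟨m, k⟩ => z ⟨m, k.symm⟩, zero_mul, zero_div])

theorem th_pw {Γ : Subgroup GQ} {θ : GQ → ℂ} (hm : ∀ g ∈ Γ, ∀ h ∈ Γ, θ (g * h) = θ g * θ h)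
    {g : GQ} (hg : g ∈ Γ) (n : ℕ) : θ (g ^ (n + 1)) = θ g ^ (n + 1) := by
  induction n with
  | zero => rw [zero_add, pow_one, pow_one]
  | succ n ih => rw [pow_succ, hm _ (pow_mem hg _) _ hg, ih, ← pow_succ]

variable {K M : Type} [Field K] [NumberField K] [Field M] [NumberField M] [Algebra K M]
  {j : K →+* Qb} {jM : M →+* Qb} {T : Finset GQ} {θ : GQ → ℂ} {χ : Ideal (𝓞 M) → ℂ}
  {lam : Ideal (𝓞 K) → ℂ}

/-- the weight on the ideals of the extension -/
theorem Wt.up (h : Wt lam) (hχ : Cm χ) (h1 : ∀ I, ‖χ I‖ ≤ 1) :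
    Wt fun I => χ I * lam (Ideal.relNorm (𝓞 K) I) where
  cm := ⟨by rw [map_one, hχ.one, h.cm.one, mul_one],
    fun I J => by rw [map_mul, hχ.mul, h.cm.mul]; ring⟩
  bot := by rw [Ideal.relNorm_bot, h.bot, mul_zero]
  le := h.le.imp fun r k => ⟨k.1, fun I => by
    rw [norm_mul, ← Ideal.absNorm_relNorm (𝓞 K) (𝓞 M)]
    exact (mul_le_of_le_one_left (norm_nonneg _) (h1 I)).trans (k.2 _)⟩

/-- the series of a weight -/
theorem Wt.exp (h : Wt lam) (j : K →+* Qb) : ∑' I, lam I = Complex.exp (lg j (fun _ => 1) lam) :=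
  eq_exp h (Bd.const 1) (euler h.cm h.bot h.sum) fun v => by
    have := lf_pow (c := fun _ => 1) (g := fr j v) (x := lam v.asIdeal) (a := 1)
      (fun n _ => (one_pow n).symm) (by rw [one_mul]; exact (h.half v).trans_lt (by norm_num))
    rwa [one_mul] at this

/-- `χ` is the character of ideals of `θ` above the support of `lam`, where `M / K` is
unramified -/
structure Dc (j : K →+* Qb) (jM : M →+* Qb) (θ : GQ → ℂ) (χ : Ideal (𝓞 M) → ℂ)
    (lam : Ideal (𝓞 K) → ℂ) : Prop where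
  com : ∀ x, jM (algebraMap K M x) = j x
  mul : ∀ g ∈ GK jM, ∀ h ∈ GK jM, θ (g * h) = θ g * θ h
  le : ∀ g ∈ GK jM, ‖θ g‖ ≤ 1
  cm : Cm χ
  one : ∀ I, ‖χ I‖ ≤ 1
  unr : ∀ l P, Ov l P → lam (below j P) ≠ 0 → ∀ g ∈ GK j, Inert P g → g ∈ GK jM
  val : ∀ l P, Ov l P → lam (below j P) ≠ 0 → ∀ g, Fr jM P g → χ (below jM P) = θ g

/-- the identity at one prime -/
theorem loc (D : Dc j jM θ χ lam) (hT : Rp (GK j) (GK jM) T) (h : Wt lam) (v : Pr K) :
    ∑' w : Rc.dw (M' := M) K ⁻¹' {v}, lf (fun _ => 1) 1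
      (χ w.1.asIdeal * lam (Ideal.relNorm (𝓞 K) w.1.asIdeal)) =
      lf (ind (GK jM) T θ) (fr j v) (lam v.asIdeal) := by
  have rn : ∀ w : Pr M, Rc.dw K w = v →
      lam (Ideal.relNorm (𝓞 K) w.asIdeal) = lam v.asIdeal ^ dg K w.asIdeal := fun w k => by
    rw [Rc.rel_pr, h.cm.pow, k]; rfl
  by_cases z : lam v.asIdeal = 0
  · rw [z, lf_zero]
    refine (tsum_congr fun w => ?_).trans tsum_zero
    rw [rn w.1 w.2, z, zero_pow (dg_pos w.1).ne', mul_zero, lf_zero]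
  obtain ⟨⟨l, hP⟩, hb, hφ⟩ := fr_spec j v
  set P := pl j v
  set φ := fr j v
  have bl : ∀ s ∈ GK j, below j (s⁻¹ • P) = v.asIdeal := fun s hs => by
    rw [Pl.below_smul j (inv_mem hs), hb]
  have hI : ∀ s ∈ GK j, ∀ g ∈ GK j, Inert (s⁻¹ • P) g → g ∈ GK jM := fun s hs =>
    D.unr l _ (ov_smul hP _) (by rwa [bl s hs])
  let W : GQ → Pr M := fun t => Pl.dn jM l (t⁻¹ • P) (ov_smul hP _)
  have dW : ∀ s ∈ GK j, Rc.dw K (W s) = v := fun s hs =>
    HeightOneSpectrum.ext ((dw_dn D.com _).trans (bl s hs))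
  have cW : ∀ s ∈ GK j, (T.filter fun t => W t = W s).card = dg K (W s).asIdeal := fun s hs => by
    rw [← show _ = dg K (W s).asIdeal from card_fib D.com hT hP hφ hs (hI s hs)]
    exact congrArg _ (Finset.filter_congr fun t _ => HeightOneSpectrum.ext_iff)
  have im : Rc.dw (M' := M) K ⁻¹' {v} = (T.image W : Finset (Pr M)) := by
    ext w
    rw [Finset.mem_coe, Finset.mem_image]
    refine ⟨fun k => ?_, fun ⟨t, ht, k⟩ => k ▸ dW t (hT.1 t ht)⟩
    obtain ⟨Q, hQ, q⟩ := P022.H916.exists_above jM w.asIdeal w.isPrime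
    obtain ⟨u, hu⟩ := P022.H916.exists_smul j hP.2.1 hQ (by
      rw [hb, Rc.below_dw D.com, q, ← show Rc.dw K w = v from k]; rfl)
    have s : W (u : GQ)⁻¹ = w := HeightOneSpectrum.ext (by
      show below jM _ = _
      rw [inv_inv, ← hu, q])
    obtain ⟨t, ht⟩ := Finset.card_pos.1 ((cW _ (inv_mem u.2)).symm ▸ dg_pos _)
    exact ⟨t, (Finset.mem_filter.1 ht).1, (Finset.mem_filter.1 ht).2.trans s⟩
  let G : Pr M → ℂ := fun w =>
    lf (fun _ => 1) 1 (χ w.asIdeal * lam (Ideal.relNorm (𝓞 K) w.asIdeal))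
  have tm : ∀ t ∈ T, lf (fun g => if t⁻¹ * g * t ∈ GK jM then θ (t⁻¹ * g * t) else 0) φ
      (lam v.asIdeal) = G (W t) / dg K (W t).asIdeal := fun t ht => by
    have m := hT.1 t ht
    have k := pow_mem_iff D.com (ov_smul hP _) (hφ.conj m) (hI t m)
    have f := fr_dg D.com (ov_smul hP _) (hφ.conj m) (hI t m)
    show _ = lf _ _ _ / _
    rw [rn _ (dW t m)]
    refine lf_div (dg_pos _) (fun n hn => ?_) fun n hn => ?_
    · obtain ⟨n, rfl⟩ := Nat.exists_eq_succ_of_ne_zero hn.ne'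
      rw [conj_pw, if_pos ((k (dg K (W t).asIdeal * n.succ)).2 ⟨_, rfl⟩), pow_mul]
      exact (th_pw D.mul f.1 n).trans (congrArg (· ^ (n + 1))
        (D.val l _ (ov_smul hP _) (by rwa [bl t m]) _ f).symm)
    · rw [conj_pw, if_neg fun a => hn ((k n).1 a)]
  rw [tsum_congr_set_coe G im, Finset.tsum_subtype' _ G]
  refine Eq.trans ?_ (lf_fsum T (fun t => ⟨1, fun g => ?_⟩) (h.half v)).symm
  · rw [Finset.sum_congr rfl tm, Finset.sum_comp (fun w => G w / dg K w.asIdeal) W]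
    refine Finset.sum_congr rfl fun w hw => ?_
    obtain ⟨t, ht, rfl⟩ := Finset.mem_image.1 hw
    have : (dg K (W t).asIdeal : ℂ) ≠ 0 := Nat.cast_ne_zero.2 (dg_pos _).ne'
    rw [cW t (hT.1 t ht), nsmul_eq_mul, mul_div_cancel₀ _ this]
  · split_ifs with a
    · exact D.le _ a
    · simp

/-- **the series of a character of `M` is the series of the induced class function** -/
theorem ind_eq (D : Dc j jM θ χ lam) (hT : Rp (GK j) (GK jM) T) (h : Wt lam) :
    ∑' I, χ I * lam (Ideal.relNorm (𝓞 K) I) = Complex.exp (lg j (ind (GK jM) T θ) lam) := by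
  have u := h.up D.cm D.one
  rw [u.exp jM]
  congr 1
  have s := ((lg_sum (j := jM) u (Bd.const 1)).hasSum.tsum_fiberwise (Rc.dw K)).tsum_eq
  exact s.symm.trans (tsum_congr fun v => loc D hT h v)

/-- a family of fields -/
theorem ind_fam {κ : Type} [Fintype κ] {N : κ → Type} [∀ i, Field (N i)] [∀ i, NumberField (N i)]
    [∀ i, Algebra K (N i)] {jN : ∀ i, N i →+* Qb} {θ : κ → GQ → ℂ} {χ : ∀ i, Ideal (𝓞 (N i)) → ℂ}
    {T : κ → Finset GQ} (D : ∀ i, Dc j (jN i) (θ i) (χ i) lam)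
    (hT : ∀ i, Rp (GK j) (GK (jN i)) (T i)) (h : Wt lam) :
    ∏ i, ∑' I, χ i I * lam (Ideal.relNorm (𝓞 K) I) =
      Complex.exp (lg j (fun g => ∑ i, ind (GK (jN i)) (T i) (θ i) g) lam) := by
  rw [lg_fsum h _ fun i => ind_bd (D i).le, Complex.exp_sum]
  exact Finset.prod_congr rfl fun i _ => ind_eq (D i) (hT i) h

end Vale.Agent.P014Y.Br
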