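import Vale.Agent.P014Y.Br.Rp
import Vale.Agent.P022.H853.L3.Dens

/-!
# P014 Y, block BR: the primes above an unramified prime
-/

set_option linter.all false

open NumberField IsDedekindDomain
open scoped Classical Pointwise

noncomputable section

namespace Vale.Agent.P014Y.Br

open Vale.Agent.P022 (Qb GQ GK below)
open Vale.Agent.P027M.S (Pr Inert)
open Vale.Agent.P022E.GW (Ov)
open Vale.Agent.P022K.GW Vale.Agent.P004C.Al

section

variable {K : Type} [Field K] [NumberField K] {j : K →+* Qb} {l : ℕ} {P : Ideal (𝓞 Qb)} {φ : GQ}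

theorem two_le (j : K →+* Qb) (hP : Ov l P) : 2 ≤ Ideal.absNorm (below j P) :=
  P016Z.EP.two_le_Nv (Pl.dn j l P hP)

theorem Fr.dec (hP : Ov l P) (h : Fr j P φ) : φ ∈ P022D.W.dec P :=
  Pl.fr_dec hP.2.1 (by have := two_le j hP; omega) h.2

theorem Fr.smul (hP : Ov l P) (h : Fr j P φ) (n : ℕ) : (φ ^ n) • P = P :=
  (Pl.dec_iff _ _).1 (pow_mem (h.dec hP) n)

/-- conjugates of Frobenius elements -/
theorem Fr.conj (h : Fr j P φ) {t : GQ} (ht : t ∈ GK j) : Fr j (t⁻¹ • P) (t⁻¹ * φ * t) := by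
  refine ⟨mul_mem (mul_mem (inv_mem ht) h.1) ht, fun x => ?_⟩
  rw [Pl.below_smul j (inv_mem ht), Pl.mem_smul, inv_inv, smul_sub, smul_pow', ← mul_smul,
    show t * (t⁻¹ * φ * t) = φ * t by group, mul_smul]
  exact h.2 _

theorem Fr.gn (hP : Ov l P) (h : Fr j P φ) : Gn (GK j) P φ :=
  Pl.fri j (w := Pl.dn j l P hP) (g := ⟨φ, h.1⟩) hP rfl ⟨hP.2.1, rfl, h.2⟩

theorem conj_pw (t φ : GQ) (n : ℕ) : t⁻¹ * φ ^ n * t = (t⁻¹ * φ * t) ^ n := by
  induction n with
  | zero => simp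
  | succ n ih => rw [pow_succ, pow_succ, ← ih]; group

/-- two Frobenius elements differ by an element of the inertia group -/
theorem Fr.inert (hP : Ov l P) {ψ : GQ} {q : ℕ} (hq : q ≠ 0)
    (h : ∀ x : 𝓞 Qb, φ • x - x ^ q ∈ P) (h' : ∀ x : 𝓞 Qb, ψ • x - x ^ q ∈ P) :
    Inert P (ψ⁻¹ * φ) := fun x => by
  have a1 := P.sub_mem (h x) (h' x)
  rw [sub_sub_sub_cancel_right] at a1
  have a2 := ((P022D.W.dec P).inv_mem (Pl.fr_dec hP.2.1 hq h') _).2 a1
  rwa [smul_sub, inv_smul_smul, ← mul_smul] at a2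

variable {M : Type} [Field M] [NumberField M] [Algebra K M] {jM : M →+* Qb}

/-- the residue degree -/
def dg (K : Type) [Field K] [Algebra K M] (w : Ideal (𝓞 M)) : ℕ := w.inertiaDeg (𝓞 K)

theorem dg_pos (w : Pr M) : 0 < dg K w.asIdeal :=
  have := w.isMaximal
  Ideal.inertiaDeg_pos w.asIdeal (𝓞 K)

variable (e : ∀ x, jM (algebraMap K M x) = j x)
include e

theorem dw_dn (hP : Ov l P) : (Rc.dw K (Pl.dn jM l P hP)).asIdeal = below j P :=
  (Rc.below_dw e P).symm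

theorem nm_eq (hP : Ov l P) :
    Ideal.absNorm (below jM P) = Ideal.absNorm (below j P) ^ dg K (below jM P) := by
  rw [← dw_dn e hP]
  exact Rc.abs_pr (M := K) (Pl.dn jM l P hP)

variable (hP : Ov l P) (h : Fr j P φ) (hI : ∀ g ∈ GK j, Inert P g → g ∈ GK jM)
include hP h hI

/-- the power of the Frobenius element by the residue degree -/
theorem fr_dg : Fr jM P (φ ^ dg K (below jM P)) := by
  obtain ⟨ψ, hψ⟩ := ex_fr jM hP
  have a : ∀ x : 𝓞 Qb, (φ ^ dg K (below jM P)) • x - x ^ Ideal.absNorm (below jM P) ∈ P := by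
    rw [nm_eq e hP]
    exact Pl.pw (h.dec hP) h.2 _
  have i := hI _ (mul_mem (inv_mem (Rc.gk_le e hψ.1)) (pow_mem h.1 _))
    (Fr.inert hP (by have := two_le jM hP; omega) a hψ.2)
  exact ⟨by simpa using mul_mem hψ.1 i, a⟩

theorem pow_mem_iff (n : ℕ) : φ ^ n ∈ GK jM ↔ dg K (below jM P) ∣ n := by
  have a := (fr_dg e hP h hI).1
  refine ⟨fun k => ?_, fun ⟨m, k⟩ => by rw [k, pow_mul]; exact pow_mem a m⟩
  set f := dg K (below jM P) with hf
  have f0 : 0 < f := dg_pos (Pl.dn jM l P hP)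
  have b : φ ^ (n % f) ∈ GK jM := by
    rw [← Nat.div_add_mod n f, pow_add, pow_mul] at k
    exact ((GK jM).mul_mem_cancel_left (pow_mem a _)).1 k
  by_contra z
  have r0 : n % f ≠ 0 := fun r => z (Nat.dvd_of_mod_eq_zero r)
  have q2 := two_le j hP
  have := P022.H20.below_prime jM hP.2.1
  have c := (P022.H853.card_le_of_pow_eq (R := 𝓞 M ⧸ below jM P)
    (q := Ideal.absNorm (below j P) ^ (n % f)) (Nat.one_lt_pow r0 q2) fun x => by
      obtain ⟨y, rfl⟩ := Ideal.Quotient.mk_surjective x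
      have a1 := Pl.pw (h.dec hP) h.2 (n % f) (RingOfIntegers.mapRingHom jM y)
      rw [Pl.fix_int jM b, ← map_pow, ← map_sub] at a1
      rw [← map_pow]
      exact (Ideal.Quotient.eq.2 a1).symm).2
  have c' : Ideal.absNorm (below jM P) ≤ _ := c
  rw [nm_eq e hP, ← hf] at c'
  exact absurd (Nat.pow_lt_pow_right q2 (Nat.mod_lt n f0)) (not_lt.2 c')

end

section

variable {K M : Type} [Field K] [NumberField K] [Field M] [NumberField M] [Algebra K M]
  {j : K →+* Qb} {jM : M →+* Qb} {l : ℕ} {P : Ideal (𝓞 Qb)} {φ : GQ} {T : Finset GQ}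

/-- **the number of classes above a prime is its residue degree** -/
theorem card_fib (e : ∀ x, jM (algebraMap K M x) = j x) (hT : Rp (GK j) (GK jM) T) (hP : Ov l P)
    (h : Fr j P φ) {s : GQ} (hs : s ∈ GK j) (hI : ∀ g ∈ GK j, Inert (s⁻¹ • P) g → g ∈ GK jM) :
    (T.filter fun t => below jM (t⁻¹ • P) = below jM (s⁻¹ • P)).card =
      dg K (below jM (s⁻¹ • P)) := by
  have hP' := ov_smul hP s⁻¹
  have h' := h.conj hs
  have k := pow_mem_iff e hP' h' hI
  set f := dg K (below jM (s⁻¹ • P))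
  have f0 : 0 < f := dg_pos (Pl.dn jM l _ hP')
  have m : ∀ i : ℕ, φ ^ i * s ∈ GK j := fun i => mul_mem (pow_mem h.1 i) hs
  choose r hr using fun i => (hT.2 _ (m i)).exists
  have inj : ∀ a b, a ≤ b → b < f → r a = r b → a = b := fun a b ab bf z => by
    obtain ⟨c, rfl⟩ := Nat.exists_eq_add_of_le ab
    have := mul_mem (inv_mem (hr a).2) (z ▸ (hr (a + c)).2)
    rw [show ((r a)⁻¹ * (φ ^ a * s))⁻¹ * ((r a)⁻¹ * (φ ^ (a + c) * s)) = s⁻¹ * φ ^ c * s by
      rw [pow_add]; group, conj_pw, k] at this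
    have := Nat.eq_zero_of_dvd_of_lt this (by omega)
    omega
  rw [← Finset.card_range f]
  refine (Finset.card_bij (fun i _ => r i) (fun i _ => Finset.mem_filter.2 ⟨(hr i).1, ?_⟩)
    (fun a ha b hb z => ?_) fun t ht => ?_).symm
  · rw [← Pl.below_smul jM (hr i).2 (s⁻¹ • P), ← mul_smul, mul_assoc, mul_inv_cancel_right,
      mul_smul, h.smul hP]
  · rcases le_total a b with ab | ab
    · exact inj a b ab (Finset.mem_range.1 hb) z
    · exact (inj b a ab (Finset.mem_range.1 ha) z.symm).symm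
  · obtain ⟨t1, t2⟩ := Finset.mem_filter.1 ht
    obtain ⟨u, hu⟩ := P022.H916.exists_smul jM (ov_smul hP t⁻¹).2.1 hP'.2.1 t2
    have d : s⁻¹ * t * (u : GQ)⁻¹ ∈ GK j ⊓ P022D.W.dec (s⁻¹ • P) := by
      refine Subgroup.mem_inf.2 ⟨mul_mem (mul_mem (inv_mem hs) (hT.1 t t1))
        (inv_mem (Rc.gk_le e u.2)), (Pl.dec_iff _ _).2 ?_⟩
      conv_lhs => rw [hu]
      rw [mul_smul, inv_smul_smul, mul_smul, smul_inv_smul]
    obtain ⟨n, hn⟩ := (h'.gn hP').2 (GK jM) (P022.H916.isOpen_GK jM) hI _ d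
    have b := (k (f * (n / f))).2 ⟨_, rfl⟩
    have c := mul_mem (inv_mem (mul_mem hn u.2)) (inv_mem b)
    refine ⟨n % f, Finset.mem_range.2 (Nat.mod_lt n f0),
      (hT.2 _ (m (n % f))).unique (hr _) ⟨t1, ?_⟩⟩
    convert c using 1
    conv_rhs => rw [← Nat.mod_add_div n f, pow_add, ← conj_pw s φ (n % f)]
    rw [Nat.add_mul_div_left _ _ f0, Nat.div_eq_of_lt (Nat.mod_lt n f0), zero_add]
    group

end

end Vale.Agent.P014Y.Br
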