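import Vale.Agent.P004C.Wa.Rse

/-!
# P014Y, block BR: the Rankin-Selberg series of two dimensional Euler products (analytic core)
-/

set_option linter.all false

open NumberField Module Ideal PowerSeries
open scoped Classical NumberTheorySymbols

noncomputable section

namespace Vale.Agent.P014Y.Br.Rs

open Vale.Agent.P004C.Al (Cm sum_norm)
open Vale.Agent.P004C.Wa Vale.Agent.P004C.Wa.Co Vale.Agent.P004C.Wa.Re0 Vale.Agent.P004C.Wa.Re1

/-- the completely multiplicative function with given values at the primes -/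
def cm (x : ℕ → ℂ) (k : ℕ) : ℂ := k.factorization.prod fun p e => x p ^ e

theorem cm_one (x : ℕ → ℂ) : cm x 1 = 1 := by simp [cm]

theorem cm_mul (x : ℕ → ℂ) {a b : ℕ} (ha : a ≠ 0) (hb : b ≠ 0) : cm x (a * b) = cm x a * cm x b := by
  unfold cm
  rw [Nat.factorization_mul ha hb, Finsupp.prod_add_index' (fun _ => pow_zero _) fun _ _ _ =>
    pow_add _ _ _]

theorem cm_pow (x : ℕ → ℂ) {p : ℕ} (hp : p.Prime) (j : ℕ) : cm x (p ^ j) = x p ^ j := by
  unfold cm
  rw [hp.factorization_pow]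
  exact Finsupp.prod_single_index (h := fun p e => x p ^ e) (pow_zero _)

theorem cm_le {x : ℕ → ℂ} (h : ∀ p, ‖x p‖ ≤ 1) (k : ℕ) : ‖cm x k‖ ≤ 1 := by
  unfold cm Finsupp.prod
  rw [norm_prod]
  exact Finset.prod_le_one (fun _ _ => norm_nonneg _) fun p _ => by
    rw [norm_pow]; exact pow_le_one₀ (norm_nonneg _) (h p)

theorem of_rec {u : ℕ → ℂ} {s t : ℂ} (u0 : u 0 = 1) (u1 : u 1 = s)
    (u2 : ∀ j, u (j + 2) = s * u (j + 1) - t * u j) :
    PowerSeries.mk u * (1 - C s * X + C t * X ^ 2) = 1 := by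
  have e : PowerSeries.mk u * (1 - C s * X + C t * X ^ 2) =
      PowerSeries.mk u - C s * (PowerSeries.mk u * X ^ 1) + C t * (PowerSeries.mk u * X ^ 2) := by
    ring
  rw [e]
  ext n
  simp only [map_add, map_sub, coeff_C_mul, coeff_mul_X_pow', coeff_mk, coeff_one]
  rcases n with _ | _ | n
  · simp [u0]
  · simp [u0, u1]
  · simp [u2 n]

theorem geo (x : ℂ) : PowerSeries.mk (fun j => x ^ j) * (1 - C x * X + C 0 * X ^ 2) = 1 :=
  of_rec (pow_zero x) (pow_one x) fun j => by ring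

/-- the complete symmetric functions -/
def hq (x y : ℂ) : ℕ → ℂ
  | 0 => 1
  | i + 1 => x * hq x y i + y ^ (i + 1)

theorem hq_rec (x y : ℂ) (j : ℕ) :
    hq x y (j + 2) = (x + y) * hq x y (j + 1) - x * y * hq x y j := by
  simp only [hq]; ring

theorem hq_ser (x y : ℂ) :
    PowerSeries.mk (hq x y) * (1 - C (x + y) * X + C (x * y) * X ^ 2) = 1 :=
  of_rec rfl (by simp [hq]) (hq_rec x y)

theorem hq_le {x y : ℂ} (hx : ‖x‖ ≤ 1) (hy : ‖y‖ ≤ 1) (j : ℕ) : ‖hq x y j‖ ≤ j + 1 := by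
  induction j with
  | zero => simp [hq]
  | succ j ih =>
    refine (norm_add_le _ _).trans ?_
    rw [norm_mul, norm_pow]
    have := pow_le_one₀ (n := j + 1) (norm_nonneg y) hy
    have := mul_le_of_le_one_left (norm_nonneg (hq x y j)) hx
    push_cast
    linarith

theorem eul {f : ℕ → ℂ} (h0 : f 0 = 0) (h1 : f 1 = 1)
    (hm : ∀ {a b : ℕ}, a.Coprime b → f (a * b) = f a * f b) (su : Summable f) :
    (∀ p : Nat.Primes, Ev 1 (PowerSeries.mk fun j => f (p ^ j)) (∑' e : ℕ, f (p ^ e))) ∧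
    HasProd (fun p : Nat.Primes => ∑' e : ℕ, f (p ^ e)) (∑' k, f k) := by
  have := euler h0 h1 hm (s := 0) (by simpa using su)
  simpa using this

/-- Hecke relations away from `m` with the parameters `x`, `y` -/
structure He (m : ℕ) (A x y : ℕ → ℂ) : Prop where
  one : A 1 = 1
  mul : ∀ a b, a.Coprime b → a.Coprime m → b.Coprime m → A (a * b) = A a * A b
  bx : ∀ p, ‖x p‖ ≤ 1
  by' : ∀ p, ‖y p‖ ≤ 1
  ap : ∀ p, p.Prime → ¬ p ∣ m → A p = x p + y p
  rc : ∀ p, p.Prime → ¬ p ∣ m → ∀ j,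
    A (p ^ (j + 2)) = A p * A (p ^ (j + 1)) - x p * y p * A (p ^ j)

variable {m : ℕ} {A x y : ℕ → ℂ}

theorem He.pow (h : He m A x y) {p : ℕ} (hp : p.Prime) (d : ¬ p ∣ m) (j : ℕ) :
    A (p ^ j) = hq (x p) (y p) j := by
  induction j using Nat.twoStepInduction with
  | zero => simpa [hq] using h.one
  | one => simpa [hq] using h.ap p hp d
  | more j a b => rw [h.rc p hp d, hq_rec, a, b, h.ap p hp d]

theorem He.le (h : He m A x y) (k : ℕ) : k.Coprime m → k ≠ 0 → ‖A k‖ ≤ k.divisors.card := by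
  induction k using Nat.recOnPosPrimePosCoprime with
  | zero => exact fun _ n => absurd rfl n
  | one => simp [h.one]
  | prime_pow p j hp j0 =>
    intro c _
    rw [h.pow hp ((Nat.Prime.coprime_iff_not_dvd hp).1 (Nat.Coprime.coprime_dvd_left
      (dvd_pow_self p j0.ne') c)), Nat.divisors_prime_pow hp, Finset.card_map, Finset.card_range]
    exact_mod_cast hq_le (h.bx p) (h.by' p) j
  | coprime a b a1 b1 c ia ib =>
    intro d _
    rw [Nat.coprime_mul_iff_left] at d
    rw [h.mul a b c d.1 d.2, norm_mul, c.card_divisors_mul, Nat.cast_mul]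
    exact mul_le_mul (ia d.1 (by omega)) (ib d.2 (by omega)) (norm_nonneg _) (by positivity)

variable {K : Type} [Field K] [NumberField K] {lam : Ideal (𝓞 K) → ℂ} {r : ℝ}

theorem sm (hr : 1 < r) (lb : ∀ I, ‖lam I‖ ≤ (absNorm I : ℝ) ^ (-r)) {g : ℕ → ℂ}
    (hg : ∀ k, ‖g k‖ ≤ 1) : Summable fun I => lam I * g (absNorm I) :=
  .of_norm_bounded (sum_norm K hr) fun I => by
    rw [norm_mul]; exact (mul_le_of_le_one_right (norm_nonneg _) (hg _)).trans (lb I)

theorem He.sm (h : He m A x y) (l0 : lam ⊥ = 0) (hr : 1 < r)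
    (lb : ∀ I, ‖lam I‖ ≤ (absNorm I : ℝ) ^ (-r))
    (lm : ∀ I, ¬ (absNorm I).Coprime m → lam I = 0) : Summable fun I => lam I * A (absNorm I) := by
  obtain ⟨c, c1, hc⟩ := P001.H319.divisor_bound ((r - 1) / 2) (by linarith)
  refine .of_norm_bounded ((sum_norm K (s := (r + 1) / 2) (by linarith)).mul_left c) fun I => ?_
  by_cases z : lam I = 0
  · rw [z, zero_mul, norm_zero]; positivity
  have n : absNorm I ≠ 0 := fun e => z (by rw [absNorm_eq_zero_iff.1 e, l0])
  have n' : (0 : ℝ) < absNorm I := by positivity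
  rw [norm_mul, show -((r + 1) / 2) = (r - 1) / 2 + -r by ring, Real.rpow_add n', ← mul_assoc,
    mul_comm]
  exact mul_le_mul ((h.le _ (not_not.1 fun e => z (lm I e)) n).trans (hc _ n)) (lb I)
    (norm_nonneg _) (by positivity)

theorem co_off (lm : ∀ I, ¬ (absNorm I).Coprime m → lam I = 0) {k : ℕ} (c : ¬ k.Coprime m) :
    co lam k = 0 := by
  rw [co_eq]
  exact Finset.sum_eq_zero fun I hI => lm I (by rwa [mem_fs.1 hI])

variable {J : K →+* ℂ} {D : ℕ} {θ : 𝓞 K}

/-- **the Rankin-Selberg identity** -/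
theorem core (hK : Kd J D θ) (h : He m A x y) (hl : Cm lam) (l0 : lam ⊥ = 0) (hr : 1 < r)
    (lb : ∀ I, ‖lam I‖ ≤ (absNorm I : ℝ) ^ (-r))
    (lm : ∀ I, ¬ (absNorm I).Coprime m → lam I = 0) :
    (∑' k : ℕ, cm x k * cm y k * J(k | D) * lam (span {(k : 𝓞 K)})) * ∑' k, A k * co lam k =
      (∑' I, cm x (absNorm I) * lam I) * ∑' I, cm y (absNorm I) * lam I := by
  have one : ∀ z : ℕ → ℂ, (∀ p, ‖z p‖ ≤ 1) →
      (∀ p : Nat.Primes, Ev 1 (PowerSeries.mk fun j => z p ^ j * co lam (p ^ j))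
        (∑' e : ℕ, cm z (p ^ e) * co lam (p ^ e))) ∧
      HasProd (fun p : Nat.Primes => ∑' e : ℕ, cm z (p ^ e) * co lam (p ^ e))
        (∑' I, cm z (absNorm I) * lam I) := fun z hz => by
    have T := co_sum (sm hr lb (cm_le hz)).hasSum
    simp only [mul_comm (co lam _), mul_comm (lam _)] at T
    obtain ⟨l, E⟩ := eul (f := fun k => cm z k * co lam k) (by simp [co_zero l0])
      (by simp [cm_one, co_one hl]) (fun {a b} c => by
        rcases eq_or_ne a 0 with rfl | a0
        · simp [co_zero l0]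
        rcases eq_or_ne b 0 with rfl | b0
        · simp [co_zero l0]
        rw [cm_mul z a0 b0, co_mul hl l0 c]; ring) T.summable
    exact ⟨fun p => by simpa only [cm_pow z p.2] using l p, T.tsum_eq ▸ E⟩
  obtain ⟨lx, Ex⟩ := one x h.bx
  obtain ⟨ly, Ey⟩ := one y h.by'
  have T2 := (co_sum (h.sm l0 hr lb lm).hasSum).summable
  simp only [mul_comm (co lam _)] at T2
  obtain ⟨l2, E2⟩ := eul (f := fun k => A k * co lam k) (by simp [co_zero l0])
    (by simp [h.one, co_one hl]) (fun {a b} c => by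
      rw [co_mul hl l0 c]
      by_cases ca : a.Coprime m
      · by_cases cb : b.Coprime m
        · rw [h.mul a b c ca cb]; ring
        · simp [co_off lm cb]
      · simp [co_off lm ca]) T2
  set Z : ℕ → ℂ := fun k => cm x k * cm y k * J(k | D) * lam (span {(k : 𝓞 K)}) with hZ
  have Z0 : Z 0 = 0 := by simp [hZ, l0]
  have Z1 : Z 1 = 1 := by simp [hZ, cm_one, ← one_eq_top, hl.one]
  have Zm : ∀ a b, Z (a * b) = Z a * Z b := fun a b => by
    rcases eq_or_ne a 0 with rfl | a0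
    · simp [Z0]
    rcases eq_or_ne b 0 with rfl | b0
    · simp [Z0]
    simp only [hZ, cm_mul _ a0 b0, Nat.cast_mul, jacobiSym.mul_left, Int.cast_mul,
      ← span_singleton_mul_span_singleton, hl.mul]
    ring
  have T1 : Summable Z := by
    refine .of_norm_bounded (Real.summable_nat_rpow.2 (show -r < -1 by linarith)) fun k => ?_
    rcases eq_or_ne k 0 with rfl | k0
    · rw [Z0, norm_zero]; positivity
    have j : ‖(J(k | D) : ℂ)‖ ≤ 1 := by
      rcases jacobiSym.trichotomy k D with e | e | e <;> simp [e]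
    have k1 : (1 : ℝ) ≤ k := by exact_mod_cast Nat.one_le_iff_ne_zero.2 k0
    simp only [hZ, norm_mul]
    refine (mul_le_of_le_one_left (norm_nonneg _) (mul_le_one₀ (mul_le_one₀ (cm_le h.bx k)
      (norm_nonneg _) (cm_le h.by' k)) (norm_nonneg _) j)).trans ((lb _).trans ?_)
    rw [nm_span hK.two]
    refine Real.rpow_le_rpow_of_nonpos (by linarith) ?_ (by linarith)
    push_cast
    nlinarith
  obtain ⟨l1, E1⟩ := eul Z0 Z1 (fun _ => Zm _ _) T1
  refine (E1.mul E2).unique (cast (congrArg (HasProd · _) (funext fun p => ?_)) (Ex.mul Ey))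
  obtain ⟨s, t, e⟩ := ex_ep hK.two lam p.2
  have hv := e.ser hK.two hl p.2
  have pw : ∀ j, Z (p ^ j) = Z p ^ j := fun j => by
    induction j with
    | zero => simp [Z1]
    | succ j ih => rw [pow_succ, Zm, ih, pow_succ]
  have zp : Z p = x p * y p * t := by
    have a := cm_pow x p.2 1
    have b := cm_pow y p.2 1
    rw [pow_one, pow_one] at a b
    simp only [hZ, a, b, jac hK hl p.2 e]
    ring
  have e2 : (fun j => A (p ^ j) * co lam (p ^ j)) = fun j => hq (x p) (y p) j * co lam (p ^ j) := by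
    funext j
    by_cases d : (p : ℕ) ∣ m
    · rcases j with _ | j
      · simp [h.one, hq]
      · rw [co_off lm fun c => (Nat.Prime.coprime_iff_not_dvd p.2).1 (Nat.Coprime.coprime_dvd_left
          (dvd_pow_self _ j.succ_ne_zero) c) d, mul_zero, mul_zero]
    · rw [h.pow p.2 d]
  obtain ⟨rx, hx⟩ := Ev.rr (x := 1) (x p) 0 s t
  obtain ⟨ry, hy⟩ := Ev.rr (x := 1) (y p) 0 s t
  have a := hx _ _ (lx p)
  rw [rank (geo (x p)) hv, zero_mul, map_zero, mul_zero, sub_zero] at a
  have b := hy _ _ (ly p)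
  rw [rank (geo (y p)) hv, zero_mul, map_zero, mul_zero, sub_zero] at b
  have c := hy _ _ (hx _ _ (l2 p))
  have rr : RR (x p) 0 s t * RR (y p) 0 s t = RR (x p + y p) (x p * y p) s t := by
    simp only [RR, map_mul, map_add, map_sub, map_pow, map_ofNat, map_zero]
    ring
  rw [e2, mul_assoc, rr, rank (hq_ser _ _) hv] at c
  have c' := c.unique (by simpa using (Ev.one (x := 1)).sub (Ev.one.mulX.mulX.mulC (x p * y p * t)) :
    Ev 1 (1 - X * X * C (x p * y p * t)) (1 - x p * y p * t))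
  have d := (l1 p).sub ((l1 p).mulX.mulC (Z p))
  have g := geo (Z p)
  rw [map_zero, zero_mul, add_zero, mul_sub, mul_one, mul_comm (C _), ← mul_assoc] at g
  simp only [pw] at d
  rw [g] at d
  have a' := a.unique Ev.one
  have b' := b.unique Ev.one
  have d' := d.unique Ev.one
  simp only [e2, pw]
  rw [zp] at d' ⊢
  generalize (∑' e : ℕ, (x p * y p * t) ^ e) = z1 at *
  generalize (∑' e : ℕ, hq (x p) (y p) e * co lam (p ^ e)) = z2 at *
  generalize (∑' e : ℕ, cm x (p ^ e) * co lam (p ^ e)) = zx at *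
  generalize (∑' e : ℕ, cm y (p ^ e) * co lam (p ^ e)) = zy at *
  linear_combination (-(zx * zy)) * d' - zx * zy * z1 * c' + z1 * z2 * zy * ry * a' + z1 * z2 * b'

end Vale.Agent.P014Y.Br.Rs
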