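import Vale.Agent.P014Y.Br.Defs
import Vale.Agent.P014Y.Br.Rs0

/-!
# P014Y, block BR: row RS2, the Rankin-Selberg series of a form of weight one with a Galois
representation is the exponential of `lg` of the trace
-/

set_option linter.all false

open NumberField Module Ideal IsDedekindDomain
open scoped Classical NumberTheorySymbols

noncomputable section

namespace Vale.Agent.P014Y.Br

open Vale.Agent.P022 (Qb GQ GK below)
open Vale.Agent.P027M.S (Pr Inert)
open Vale.Agent.P022E.GW (Ov Fb)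
open Vale.Agent.P004C.Al (Cm)
open Vale.Agent.P004C.Wa Vale.Agent.P004C.Wa.Co
open Rs

namespace Rs

variable {K : Type} [Field K] [NumberField K] {j : K →+* Qb} {lam : Ideal (𝓞 K) → ℂ}

/-- a series over ideals with a completely multiplicative factor -/
theorem ser (hw : Wt lam) {z : ℕ → ℂ} (hz : ∀ p, ‖z p‖ ≤ 1) :
    HasProd (fun v : Pr K => 1 - cm z (absNorm v.asIdeal) * lam v.asIdeal)
      (∑' I, cm z (absNorm I) * lam I)⁻¹ := by
  refine euler (F := fun I => cm z (absNorm I) * lam I) ⟨by simp [cm_one, ← one_eq_top, hw.cm.one],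
    fun I J => ?_⟩ (by simp [hw.bot]) (hw.sum.of_nonneg_of_le (fun _ => norm_nonneg _) fun I => ?_)
  · rcases eq_or_ne I ⊥ with rfl | i
    · simp [hw.bot]
    rcases eq_or_ne J ⊥ with rfl | k
    · simp [hw.bot]
    rw [map_mul, cm_mul z (absNorm_eq_zero_iff.not.2 i) (absNorm_eq_zero_iff.not.2 k), hw.cm.mul]
    ring
  · rw [norm_mul]
    exact mul_le_of_le_one_left (norm_nonneg _) (cm_le hz _)

/-- power sums -/
theorem two (hw : Wt lam) {t : GQ → ℂ} (hb : Bd t) {x y : ℕ → ℂ} (hx : ∀ p, ‖x p‖ ≤ 1)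
    (hy : ∀ p, ‖y p‖ ≤ 1) (ht : ∀ v : Pr K, lam v.asIdeal ≠ 0 → ∀ n, 0 < n → t (fr j v ^ n) =
      cm x (absNorm v.asIdeal) ^ n + cm y (absNorm v.asIdeal) ^ n) :
    (∑' I, cm x (absNorm I) * lam I) * ∑' I, cm y (absNorm I) * lam I =
      Complex.exp (lg j t lam) := by
  refine eq_exp hw hb (by rw [mul_inv]; exact (ser hw hx).mul (ser hw hy)) fun v => ?_
  by_cases z : lam v.asIdeal = 0
  · simp [z, lf_zero]
  have lt : ∀ u : ℕ → ℂ, (∀ p, ‖u p‖ ≤ 1) → ‖cm u (absNorm v.asIdeal) * lam v.asIdeal‖ < 1 :=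
    fun u hu => by
      rw [norm_mul]
      exact (mul_le_of_le_one_left (norm_nonneg _) (cm_le hu _)).trans_lt
        ((hw.half v).trans_lt (by norm_num))
  have ne : ∀ {w : ℂ}, ‖w‖ < 1 → 1 - w ≠ 0 := fun h z => by
    rw [← sub_eq_zero.1 z, norm_one] at h
    exact lt_irrefl _ h
  have e : lf t (fr j v) (lam v.asIdeal) = -Complex.log (1 - cm x (absNorm v.asIdeal) *
      lam v.asIdeal) + -Complex.log (1 - cm y (absNorm v.asIdeal) * lam v.asIdeal) := by
    rw [← ((Complex.hasSum_taylorSeries_neg_log (lt x hx)).add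
      (Complex.hasSum_taylorSeries_neg_log (lt y hy))).tsum_eq]
    refine tsum_congr fun n => ?_
    cases n with
    | zero => simp
    | succ n => rw [ht v z (n + 1) n.succ_pos, mul_pow, mul_pow]; ring
  rw [e, Complex.exp_add, Complex.exp_neg, Complex.exp_neg, Complex.exp_log (ne (lt x hx)),
    Complex.exp_log (ne (lt y hy)), mul_mul_mul_comm, mul_inv_cancel₀ (ne (lt x hx)),
    mul_inv_cancel₀ (ne (lt y hy)), mul_one]

abbrev M2 : Type := Matrix (Fin 2) (Fin 2) ℂ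

theorem tr_pow {a : M2} {x y : ℂ} (h1 : a.trace = x + y) (h2 : a.det = x * y) (n : ℕ) :
    (a ^ n).trace = x ^ n + y ^ n := by
  have ch : a ^ 2 = (x + y) • a - (x * y) • (1 : M2) := by
    rw [← h1, ← h2, Matrix.trace_fin_two, Matrix.det_fin_two]
    ext i k
    fin_cases i <;> fin_cases k <;> simp [sq, Matrix.mul_apply] <;> ring
  induction n using Nat.twoStepInduction with
  | zero => simp; norm_num
  | one => simpa using h1
  | more n p q =>
    rw [pow_add, ch, mul_sub, mul_smul_comm, mul_smul_comm, mul_one, ← pow_succ, Matrix.trace_sub,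
      Matrix.trace_smul, Matrix.trace_smul, p, q, smul_eq_mul, smul_eq_mul]
    ring

theorem root_le {a : M2} {x y : ℂ} (h1 : a.trace = x + y) (h2 : a.det = x * y) {N : ℕ}
    (N0 : 0 < N) (hN : a ^ N = 1) : ‖x‖ ≤ 1 := by
  obtain ⟨v, v0, hv⟩ := Matrix.exists_mulVec_eq_zero_iff.2 (show (a - x • (1 : M2)).det = 0 by
    rw [Matrix.trace_fin_two] at h1
    rw [Matrix.det_fin_two] at h2 ⊢
    simp
    linear_combination h2 - x * h1)
  rw [Matrix.sub_mulVec, Matrix.smul_mulVec, Matrix.one_mulVec, sub_eq_zero] at hv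
  have e : ∀ n, (a ^ n).mulVec v = x ^ n • v := fun n => by
    induction n with
    | zero => simp
    | succ n ih => rw [pow_succ, ← Matrix.mulVec_mulVec, hv, Matrix.mulVec_smul, ih, smul_smul,
        pow_succ']
  have := e N
  rw [hN, Matrix.one_mulVec, eq_comm, ← sub_eq_zero, ← one_smul ℂ v, smul_smul, mul_one,
    ← sub_smul, smul_eq_zero, sub_eq_zero] at this
  have k := congrArg norm (this.resolve_right v0)
  rw [norm_pow, norm_one, pow_eq_one_iff_of_nonneg (norm_nonneg _) N0.ne'] at k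
  exact k.le

theorem ex_root (s t : ℂ) : ∃ x y, s = x + y ∧ t = x * y := by
  obtain ⟨w, hw⟩ := IsAlgClosed.exists_pow_nat_eq (s ^ 2 - 4 * t) two_pos
  exact ⟨(s + w) / 2, (s - w) / 2, by ring, by linear_combination hw / 4⟩

end Rs

/-- `A` is the system of coefficients of the representation `σ` away from `m` -/
structure Sy (m : ℕ) (σ : GQ → M2) (ε A : ℕ → ℂ) : Prop where
  one : σ 1 = 1
  mul : ∀ g h, σ (g * h) = σ g * σ h
  fin : ∃ N, 0 < N ∧ ∀ g, σ g ^ N = 1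
  unr : ∀ l P i, Ov l P → ¬ l ∣ m → Inert P i → σ i = 1
  frb : ∀ l P g, Ov l P → ¬ l ∣ m → Fb l P g → A l = (σ g).trace ∧ ε l = (σ g).det
  e1 : ε 1 = 1
  em : ∀ a b, ε (a * b) = ε a * ε b
  a1 : A 1 = 1
  hk : ∀ l, l.Prime → ¬ l ∣ m → ∀ n, n.Coprime m →
    A (l * n) + ε l * (if l ∣ n then A (n / l) else 0) = A l * A n

namespace Sy

variable {m : ℕ} {σ : GQ → M2} {ε A : ℕ → ℂ}

theorem pow (h : Sy m σ ε A) (g : GQ) (n : ℕ) : σ (g ^ n) = σ g ^ n := by
  induction n with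
  | zero => rw [pow_zero, pow_zero, h.one]
  | succ n ih => rw [pow_succ, pow_succ, h.mul, ih]

theorem bd (h : Sy m σ ε A) : Bd fun g => (σ g).trace := by
  obtain ⟨N, N0, hN⟩ := h.fin
  refine ⟨2, fun g => ?_⟩
  obtain ⟨x, y, a, b⟩ := ex_root (σ g).trace (σ g).det
  have := root_le a b N0 (hN g)
  have := root_le (a.trans (add_comm _ _)) (b.trans (mul_comm _ _)) N0 (hN g)
  exact (congrArg norm a).le.trans ((norm_add_le _ _).trans (by linarith))

theorem rc (h : Sy m σ ε A) {l : ℕ} (hl : l.Prime) (d : ¬ l ∣ m) {n : ℕ} (c : n.Coprime m) (i : ℕ) :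
    A (l ^ (i + 2) * n) = A l * A (l ^ (i + 1) * n) - ε l * A (l ^ i * n) := by
  have := h.hk l hl d (l ^ (i + 1) * n)
    (Nat.Coprime.mul_left (((Nat.Prime.coprime_iff_not_dvd hl).2 d).pow_left _) c)
  rw [if_pos ((dvd_pow_self l i.succ_ne_zero).mul_right n), ← mul_assoc, ← pow_succ',
    show l ^ (i + 1) * n / l = l ^ i * n by
      rw [pow_succ', mul_assoc, Nat.mul_div_cancel_left _ hl.pos]] at this
  linear_combination this

theorem pm (h : Sy m σ ε A) {l : ℕ} (hl : l.Prime) (d : ¬ l ∣ m) {n : ℕ} (c : n.Coprime m)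
    (e : ¬ l ∣ n) (i : ℕ) : A (l ^ i * n) = A (l ^ i) * A n := by
  induction i using Nat.twoStepInduction with
  | zero => simp [h.a1]
  | one => simpa [e] using h.hk l hl d n c
  | more i p q =>
    have := h.rc hl d (Nat.coprime_one_left m) i
    simp only [mul_one] at this
    rw [h.rc hl d c, this, p, q]
    ring

/-- multiplicativity -/
theorem am (h : Sy m σ ε A) (a : ℕ) : ∀ b, a.Coprime b → a.Coprime m → b.Coprime m →
    A (a * b) = A a * A b := by
  induction a using Nat.recOnPosPrimePosCoprime with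
  | zero => intro b c _ _; rw [(Nat.coprime_zero_left b).1 c, h.a1, mul_one, mul_one]
  | one => intro b _ _ _; rw [h.a1, one_mul, one_mul]
  | prime_pow p i hp i0 =>
    intro b c c1 c2
    have k : ∀ {u : ℕ}, (p ^ i).Coprime u → ¬ p ∣ u := fun e =>
      (Nat.Prime.coprime_iff_not_dvd hp).1 (Nat.Coprime.coprime_dvd_left (dvd_pow_self p i0.ne') e)
    exact h.pm hp (k c1) c2 (k c) i
  | coprime a a' _ _ c ia ia' =>
    intro b c0 c1 c2
    rw [Nat.coprime_mul_iff_left] at c0 c1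
    rw [mul_assoc, ia _ (c.mul_right c0.1) c1.1 (c1.2.mul_left c2), ia' _ c0.2 c1.2 c2,
      ia _ c c1.1 c1.2, mul_assoc]

/-- the parameters -/
theorem he (h : Sy m σ ε A) : ∃ x y, He m A x y ∧
    ∀ l, l.Prime → ¬ l ∣ m → A l = x l + y l ∧ ε l = x l * y l := by
  have : ∀ l : ℕ, ∃ x y : ℂ, ‖x‖ ≤ 1 ∧ ‖y‖ ≤ 1 ∧
      (l.Prime → ¬ l ∣ m → A l = x + y ∧ ε l = x * y) := fun l => by
    by_cases c : l.Prime ∧ ¬ l ∣ m
    · obtain ⟨N, N0, hN⟩ := h.fin
      obtain ⟨P, o⟩ := P022K.GW.Pl.ex_ov c.1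
      obtain ⟨g, f⟩ := P022D.W.exists_phi o.1 o.2.1 o.2.2
      obtain ⟨x, y, a, b⟩ := ex_root (σ g).trace (σ g).det
      obtain ⟨u, w⟩ := h.frb l P g o c.2 f
      exact ⟨x, y, root_le a b N0 (hN g), root_le (a.trans (add_comm _ _)) (b.trans (mul_comm _ _))
        N0 (hN g), fun _ _ => ⟨u.trans a, w.trans b⟩⟩
    · exact ⟨0, 0, by simp, by simp, fun a b => absurd ⟨a, b⟩ c⟩
  choose x y hx hy e using this
  refine ⟨x, y, ⟨h.a1, h.am, hx, hy, fun p a b => (e p a b).1, fun p a b i => ?_⟩, e⟩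
  have := h.rc a b (Nat.coprime_one_left m) i
  simp only [mul_one] at this
  rw [this, (e p a b).2]

theorem frob (h : Sy m σ ε A) {l f : ℕ} {P : Ideal (𝓞 Qb)} (o : Ov l P) (d : ¬ l ∣ m) {g g' : GQ}
    (hg : Fb l P g) (hg' : ∀ x : 𝓞 Qb, g' • x - x ^ l ^ f ∈ P) : σ g' = σ g ^ f := by
  have e : σ (g' * (g ^ f)⁻¹) = 1 := h.unr l P _ o d fun x => by
    obtain ⟨y, rfl⟩ : ∃ y : 𝓞 Qb, x = (g ^ f) • y := ⟨(g ^ f)⁻¹ • x, by rw [smul_inv_smul]⟩
    have := P.sub_mem (hg' y) (P022K.GW.Pl.pw (P022K.GW.Pl.fr_dec o.2.1 o.1.ne_zero hg) hg f y)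
    rw [sub_sub_sub_cancel_right] at this
    rwa [mul_smul, inv_smul_smul]
  rw [← h.pow, ← one_mul (σ (g ^ f)), ← e, ← h.mul, inv_mul_cancel_right]

end Sy

theorem Rs.cm_det {m : ℕ} {ε x y : ℕ → ℂ} (e1 : ε 1 = 1) (em : ∀ a b, ε (a * b) = ε a * ε b)
    (e : ∀ l, l.Prime → ¬ l ∣ m → ε l = x l * y l) (k : ℕ) :
    k ≠ 0 → k.Coprime m → cm x k * cm y k = ε k := by
  induction k using Nat.recOnMul with
  | zero => exact fun h => absurd rfl h
  | one => intro _ _; rw [cm_one, cm_one, e1, mul_one]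
  | prime p hp =>
    intro _ c
    have a := cm_pow x hp 1
    have b := cm_pow y hp 1
    rw [pow_one, pow_one] at a b
    rw [a, b, e p hp ((Nat.Prime.coprime_iff_not_dvd hp).1 c)]
  | mul a b ia ib =>
    intro n c
    rw [Nat.coprime_mul_iff_left] at c
    have a0 := left_ne_zero_of_mul n
    have b0 := right_ne_zero_of_mul n
    rw [cm_mul x a0 b0, cm_mul y a0 b0, em, ← ia a0 c.1, ← ib b0 c.2]
    ring

variable {K : Type} [Field K] [NumberField K] {J : K →+* ℂ} {D : ℕ} {θ : 𝓞 K} {m : ℕ}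
  {σ : GQ → M2} {ε A : ℕ → ℂ}

/-- **RS2**, any weight -/
theorem rs2 (hK : Kd J D θ) (j : K →+* Qb) (h : Sy m σ ε A) {lam : Ideal (𝓞 K) → ℂ} (hw : Wt lam)
    (lm : ∀ I, ¬ (absNorm I).Coprime m → lam I = 0) :
    (∑' k : ℕ, ε k * J(k | D) * lam (span {(k : 𝓞 K)})) * ∑' k, A k * co lam k =
      Complex.exp (lg j (fun g => (σ g).trace) lam) := by
  obtain ⟨x, y, H, e⟩ := h.he
  obtain ⟨r, hr, lb⟩ := hw.le
  rw [← two hw h.bd H.bx H.by', ← core hK H hw.cm hw.bot hr lb lm]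
  · refine congrArg (· * _) (tsum_congr fun k => ?_)
    rcases eq_or_ne k 0 with rfl | k0
    · simp [hw.bot]
    by_cases c : k.Coprime m
    · rw [cm_det h.e1 h.em (fun l a b => (e l a b).2) k k0 c]
    · rw [lm _ fun c' => c (by
        rw [nm_span hK.two] at c'; exact (Nat.coprime_pow_left_iff two_pos _ _).1 c'), mul_zero,
        mul_zero]
  · intro v z n _
    obtain ⟨⟨l, o⟩, b, -, f⟩ := fr_spec j v
    have lv : (l : 𝓞 K) ∈ v.asIdeal := b ▸ (P022.H651.natCast_mem_below j).2 o.2.2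
    have d := absNorm_dvd_absNorm_of_le ((span_singleton_le_iff_mem _).2 lv)
    rw [absNorm_span_natCast] at d
    obtain ⟨i, -, hi⟩ := (Nat.dvd_prime_pow o.1).1 d
    have dm : ¬ l ∣ m := fun dm => z (lm _ fun c => (Nat.Prime.coprime_iff_not_dvd o.1).1
      (c.coprime_dvd_left (dvd_nm o.1 v.isPrime.ne_top lv)) dm)
    obtain ⟨g, hg⟩ := P022D.W.exists_phi o.1 o.2.1 o.2.2
    obtain ⟨u, w⟩ := h.frb l _ g o dm hg
    rw [b, hi] at f
    rw [h.pow, h.frob o dm hg f, ← pow_mul, tr_pow (u.symm.trans (e l o.1 dm).1)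
      (w.symm.trans (e l o.1 dm).2), hi, cm_pow x o.1, cm_pow y o.1, pow_mul, pow_mul]

/-- the weight `a N ^ (-s)` away from `m` -/
def ws (m : ℕ) (a : Ideal (𝓞 K) → ℂ) (s : ℂ) (I : Ideal (𝓞 K)) : ℂ :=
  dp m a I * (absNorm I : ℂ) ^ (-s)

theorem ws_wt {a : Ideal (𝓞 K) → ℂ} (ha : Cm a) (a0 : a ⊥ = 0) (ab : ∀ I, ‖a I‖ ≤ 1) {s : ℂ}
    (hs : 1 < s.re) : Wt (ws m a s) := by
  refine ⟨⟨by simp [ws, dp, ← one_eq_top, ha.one], fun I I' => ?_⟩, by simp [ws, dp, a0],
    s.re, hs, fun I => ?_⟩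
  · simp only [ws, dp, map_mul, Nat.coprime_mul_iff_left, Nat.cast_mul, ha.mul,
      Complex.natCast_mul_natCast_cpow]
    by_cases u : (absNorm I).Coprime m
    · by_cases w : (absNorm I').Coprime m
      · rw [if_pos ⟨u, w⟩, if_pos u, if_pos w]; ring
      · rw [if_neg fun z => w z.2, if_neg w]; ring
    · rw [if_neg fun z => u z.1, if_neg u]; ring
  · rw [ws, norm_mul, Complex.norm_natCast_cpow_of_re_ne_zero _ (by rw [Complex.neg_re]; linarith),
      Complex.neg_re]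
    refine mul_le_of_le_one_left (by positivity) ?_
    unfold dp
    split_ifs
    · exact ab I
    · simp

theorem co_ws (a : Ideal (𝓞 K) → ℂ) (s : ℂ) (k : ℕ) :
    co (ws m a s) k = (if k.Coprime m then co a k else 0) * (k : ℂ) ^ (-s) := by
  rw [co_eq, co_eq]
  split_ifs with c
  · rw [Finset.sum_mul]
    exact Finset.sum_congr rfl fun I hI => by rw [ws, dp, mem_fs.1 hI, if_pos c]
  · rw [zero_mul]
    exact Finset.sum_eq_zero fun I hI => by rw [ws, dp, mem_fs.1 hI, if_neg c, zero_mul]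

/-- **RS2**, in the shape of the period formula -/
theorem rs (hK : Kd J D θ) (j : K →+* Qb) (h : Sy m σ ε A) {a : Ideal (𝓞 K) → ℂ} (ha : Cm a)
    (a0 : a ⊥ = 0) (ab : ∀ I, ‖a I‖ ≤ 1)
    (ae : ∀ k : ℕ, k ≠ 0 → k.Coprime m → ε k * a (span {(k : 𝓞 K)}) = (k : ℂ)⁻¹) {s : ℂ}
    (hs : 1 < s.re) :
    (∑' v : ℕ, (if v.Coprime m then (J(v | D) : ℂ) else 0) * (v : ℂ) ^ (-1 - 2 * s)) *
        ∑' k : ℕ, (if k.Coprime m then A k else 0) * co a k * (k : ℂ) ^ (-s) =
      Complex.exp (lg j (fun g => (σ g).trace) (ws m a s)) := by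
  rw [← rs2 hK j h (ws_wt ha a0 ab hs) fun I c => by rw [ws, dp, if_neg c, zero_mul]]
  refine congrArg₂ _ (tsum_congr fun k => ?_) (tsum_congr fun k => ?_)
  · rcases eq_or_ne k 0 with rfl | k0
    · rw [Nat.cast_zero (R := ℂ), Complex.zero_cpow (fun e => by
        have := congrArg Complex.re e
        simp at this
        linarith)]
      simp [ws, dp, a0]
    have k0' : (k : ℂ) ≠ 0 := Nat.cast_ne_zero.2 k0
    rw [ws, dp, nm_span hK.two]
    by_cases c : k.Coprime m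
    · rw [if_pos c, if_pos (c.pow_left 2), show -1 - 2 * s = -1 + (2 : ℕ) * -s by push_cast; ring,
        Complex.cpow_add _ _ k0', Complex.cpow_neg_one, ← ae k k0 c, Nat.cast_pow,
        Complex.natCast_cpow_natCast_mul]
      ring
    · rw [if_neg c, if_neg fun c' => c ((Nat.coprime_pow_left_iff two_pos _ _).1 c')]
      simp
  · rw [co_ws]
    split_ifs <;> simp [mul_assoc]

end Vale.Agent.P014Y.Br
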