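import Vale.Agent.P014Y.Br.Rs
import Vale.Agent.P014Y.Fe.St

/-!
# P014Y, block BR: row RS1, the series of a form of weight one with a Galois representation is the
exponential of `lg` of the trace over the rational field
-/

set_option linter.all false

open NumberField Module Ideal IsDedekindDomain PowerSeries
open scoped Classical

noncomputable section

namespace Vale.Agent.P014Y.Br

open Vale.Agent.P022 (Qb GQ GK below)
open Vale.Agent.P027M.S (Pr Inert)
open Vale.Agent.P022E.GW (Ov Fb)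
open Vale.Agent.P004C.Al (Cm)
open Vale.Agent.P004C.Wa Vale.Agent.P004C.Wa.Co Vale.Agent.P004C.Wa.Re0 Vale.Agent.P004C.Wa.Re1
open Rs

variable {K : Type} [Field K] [NumberField K] {lam : Ideal (𝓞 K) → ℂ} {m : ℕ}

namespace Rs

theorem nm_one (h1 : finrank ℚ K = 1) (k : ℕ) : absNorm (span {(k : 𝓞 K)}) = k := by
  rw [absNorm_span_natCast, RingOfIntegers.rank, h1, pow_one]

theorem sp_one (h1 : finrank ℚ K = 1) (I : Ideal (𝓞 K)) : span {(absNorm I : 𝓞 K)} = I := by
  rcases eq_or_ne I ⊥ with rfl | i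
  · simp
  obtain ⟨J, e⟩ := dvd_iff_le.2 ((span_singleton_le_iff_mem I).2 (absNorm_mem I))
  have n := congrArg absNorm e
  rw [nm_one h1, map_mul] at n
  rw [e, absNorm_eq_one_iff.1 ((mul_eq_left₀ (absNorm_eq_zero_iff.not.2 i)).1 n.symm), mul_top]

theorem co_one' (h1 : finrank ℚ K = 1) (lam : Ideal (𝓞 K) → ℂ) (k : ℕ) :
    co lam k = lam (span {(k : 𝓞 K)}) := by
  rw [co_eq, Finset.sum_eq_single_of_mem _ (mem_fs.2 (nm_one h1 k)) fun I hI n =>
    absurd (by rw [← mem_fs.1 hI, sp_one h1]) n]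

theorem ev_inv {u : ℕ → ℂ} {s t z : ℂ}
    (h : PowerSeries.mk u * (1 - C s * X + C t * X ^ 2) = 1) (e : Ev 1 (PowerSeries.mk u) z) :
    z * (1 - s + t) = 1 := by
  have a := (e.sub (e.mulX.mulC s)).add (e.mulX.mulX.mulC t)
  rw [show PowerSeries.mk u - PowerSeries.mk u * X * C s + PowerSeries.mk u * X * X * C t = 1 by
    rw [← h]; ring] at a
  linear_combination a.unique Ev.one

theorem hq_mul (x y t : ℂ) (j : ℕ) : hq x y j * t ^ j = hq (x * t) (y * t) j := by
  induction j with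
  | zero => simp [hq]
  | succ j ih => simp only [hq, ← ih]; ring

theorem core1 {A x y : ℕ → ℂ} (h1 : finrank ℚ K = 1) (h : He m A x y) (hw : Wt lam)
    (lm : ∀ I, ¬ (absNorm I).Coprime m → lam I = 0) :
    ∑' k, A k * co lam k =
      (∑' I, cm x (absNorm I) * lam I) * ∑' I, cm y (absNorm I) * lam I := by
  obtain ⟨hl, l0, r, hr, lb⟩ := hw
  have pw : ∀ p j : ℕ, co lam (p ^ j) = co lam p ^ j := fun p j => by
    induction j with
    | zero => simp [co_one hl]
    | succ j ih =>
      rw [pow_succ (co lam p), ← ih]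
      simp only [co_one' h1, pow_succ, Nat.cast_mul, ← span_singleton_mul_span_singleton, hl.mul]
  have one : ∀ z : ℕ → ℂ, (∀ p, ‖z p‖ ≤ 1) →
      (∀ p : Nat.Primes, (∑' e : ℕ, cm z (p ^ e) * co lam (p ^ e)) * (1 - z p * co lam p) = 1) ∧
      HasProd (fun p : Nat.Primes => ∑' e : ℕ, cm z (p ^ e) * co lam (p ^ e))
        (∑' I, cm z (absNorm I) * lam I) := fun z hz => by
    have T := co_sum (sm hr lb (cm_le hz)).hasSum
    simp only [mul_comm (co lam _), mul_comm (lam _)] at T
    obtain ⟨l, E⟩ := eul (f := fun k => cm z k * co lam k) (by simp [co_zero l0])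
      (by simp [cm_one, co_one hl]) (fun {a b} c => by
        rcases eq_or_ne a 0 with rfl | a0
        · simp [co_zero l0]
        rcases eq_or_ne b 0 with rfl | b0
        · simp [co_zero l0]
        rw [cm_mul z a0 b0, co_mul hl l0 c]; ring) T.summable
    refine ⟨fun p => ?_, T.tsum_eq ▸ E⟩
    have := l p
    rw [show (fun j => cm z (p ^ j) * co lam (p ^ j)) = fun j => (z p * co lam p) ^ j from
      funext fun j => by rw [cm_pow z p.2, pw, mul_pow]] at this ⊢
    simpa using ev_inv (geo _) this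
  obtain ⟨lx, Ex⟩ := one x h.bx
  obtain ⟨ly, Ey⟩ := one y h.by'
  have T2 := (co_sum (h.sm l0 hr lb lm).hasSum).summable
  simp only [mul_comm (co lam _)] at T2
  obtain ⟨l2, E2⟩ := eul (f := fun k => A k * co lam k) (by simp [co_zero l0])
    (by simp [h.one, co_one hl]) (fun {a b} c => by
      rw [co_mul hl l0 c]
      by_cases ca : a.Coprime m
      · by_cases cb : b.Coprime m
        · rw [h.mul a b c ca cb]; ring
        · simp [co_off lm cb]
      · simp [co_off lm ca]) T2
  refine E2.unique (cast (congrArg (HasProd · _) (funext fun p => ?_)) (Ex.mul Ey))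
  have e2 : (fun j => A (p ^ j) * co lam (p ^ j)) =
      hq (x p * co lam p) (y p * co lam p) := by
    funext j
    rw [← hq_mul, ← pw]
    by_cases d : (p : ℕ) ∣ m
    · rcases j with _ | j
      · simp [h.one, hq]
      · rw [co_off lm fun c => (Nat.Prime.coprime_iff_not_dvd p.2).1 (Nat.Coprime.coprime_dvd_left
          (dvd_pow_self _ j.succ_ne_zero) c) d, mul_zero, mul_zero]
    · rw [h.pow p.2 d]
  have c := l2 p
  rw [e2] at c ⊢
  have c := ev_inv (hq_ser _ _) c
  have a := lx p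
  have b := ly p
  generalize (∑' e : ℕ, hq (x p * co lam p) (y p * co lam p) e) = z2 at *
  generalize (∑' e : ℕ, cm x (p ^ e) * co lam (p ^ e)) = zx at *
  generalize (∑' e : ℕ, cm y (p ^ e) * co lam (p ^ e)) = zy at *
  linear_combination (-(zx * zy)) * c + z2 * zy * (1 - y p * co lam p) * a + z2 * b

end Rs

variable {σ : GQ → M2} {ε A : ℕ → ℂ}

/-- traces of the powers of the Frobenius elements -/
theorem Sy.tr (h : Sy m σ ε A) (j : K →+* Qb) {x y : ℕ → ℂ}
    (e : ∀ l, l.Prime → ¬ l ∣ m → A l = x l + y l ∧ ε l = x l * y l) (v : Pr K)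
    (c : (absNorm v.asIdeal).Coprime m) (n : ℕ) : (σ (fr j v ^ n)).trace =
      cm x (absNorm v.asIdeal) ^ n + cm y (absNorm v.asIdeal) ^ n := by
  obtain ⟨⟨l, o⟩, b, -, f⟩ := fr_spec j v
  have lv : (l : 𝓞 K) ∈ v.asIdeal := b ▸ (P022.H651.natCast_mem_below j).2 o.2.2
  have d := absNorm_dvd_absNorm_of_le ((span_singleton_le_iff_mem _).2 lv)
  rw [absNorm_span_natCast] at d
  obtain ⟨i, -, hi⟩ := (Nat.dvd_prime_pow o.1).1 d
  have dm : ¬ l ∣ m := (Nat.Prime.coprime_iff_not_dvd o.1).1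
    (c.coprime_dvd_left (dvd_nm o.1 v.isPrime.ne_top lv))
  obtain ⟨g, hg⟩ := P022D.W.exists_phi o.1 o.2.1 o.2.2
  obtain ⟨u, w⟩ := h.frb l _ g o dm hg
  rw [b, hi] at f
  rw [h.pow, h.frob o dm hg f, ← pow_mul, tr_pow (u.symm.trans (e l o.1 dm).1)
    (w.symm.trans (e l o.1 dm).2), hi, cm_pow x o.1, cm_pow y o.1, pow_mul, pow_mul]

/-- **RS1**, any weight -/
theorem rs1w (h1 : finrank ℚ K = 1) (j : K →+* Qb) (h : Sy m σ ε A) (hw : Wt lam)
    (lm : ∀ I, ¬ (absNorm I).Coprime m → lam I = 0) :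
    ∑' k, A k * co lam k = Complex.exp (lg j (fun g => (σ g).trace) lam) := by
  obtain ⟨x, y, H, e⟩ := h.he
  rw [core1 h1 H hw lm, two hw h.bd H.bx H.by' fun v z n _ =>
    h.tr j e v (not_not.1 fun c => z (lm _ c)) n]

/-- the weight `N ^ (-s)` away from `m` -/
def wn (K : Type) [Field K] [NumberField K] (m : ℕ) (s : ℂ) (I : Ideal (𝓞 K)) : ℂ :=
  if (absNorm I).Coprime m then (absNorm I : ℂ) ^ (-s) else 0

theorem wn_wt {s : ℂ} (hs : 1 < s.re) : Wt (wn K m s) := by
  have s0 : -s ≠ 0 := fun e => by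
    have := congrArg Complex.re e
    simp at this
    linarith
  refine ⟨⟨by simp [wn, ← one_eq_top], fun I I' => ?_⟩, by simp [wn, s0], s.re, hs, fun I => ?_⟩
  · simp only [wn, map_mul, Nat.coprime_mul_iff_left, Nat.cast_mul,
      Complex.natCast_mul_natCast_cpow]
    by_cases u : (absNorm I).Coprime m
    · by_cases w : (absNorm I').Coprime m
      · rw [if_pos ⟨u, w⟩, if_pos u, if_pos w]
      · rw [if_neg fun z => w z.2, if_neg w, mul_zero]
    · rw [if_neg fun z => u z.1, if_neg u, zero_mul]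
  · unfold wn
    split_ifs
    · rw [Complex.norm_natCast_cpow_of_re_ne_zero _ (by rw [Complex.neg_re]; linarith),
        Complex.neg_re]
    · rw [norm_zero]; positivity

theorem wn_off (s : ℂ) (I : Ideal (𝓞 K)) (c : ¬ (absNorm I).Coprime m) : wn K m s I = 0 :=
  if_neg c

/-- **RS1**, for the depletion of any system -/
theorem rs1' (h1 : finrank ℚ K = 1) (j : K →+* Qb) (h : Sy m σ ε A) {s : ℂ} (hs : 1 < s.re) :
    Fe.LA (fun k => if k.Coprime m then A k else 0) s =
      Complex.exp (lg j (fun g => (σ g).trace) (wn K m s)) := by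
  rw [← rs1w h1 j h (wn_wt hs) (wn_off s)]
  refine tsum_congr fun k => ?_
  rw [co_one' h1, wn, nm_one h1, Fe.xs]
  by_cases c : k.Coprime m
  · simp only [if_pos c]
  · simp only [if_neg c, zero_mul, mul_zero]

/-- **RS1** -/
theorem rs1 (j : ℚ →+* Qb) (h : Sy m σ ε A) (dep : ∀ k, ¬ k.Coprime m → A k = 0) {s : ℂ}
    (hs : 1 < s.re) : Fe.LA A s = Complex.exp (lg j (fun g => (σ g).trace) (wn ℚ m s)) := by
  rw [← rs1' (finrank_self ℚ) j h hs]
  exact congrArg (Fe.LA · s) (funext fun k => by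
    by_cases c : k.Coprime m
    · rw [if_pos c]
    · rw [if_neg c, dep k c])

end Vale.Agent.P014Y.Br
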